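import Vale.Agent.P318.NPV.Defs
import Vale.Agent.P318.NPH.PTGraph

/-!
The second version of the reduction is computable in polynomial time.
-/

namespace Vale.Agent.P318.NPV

open Vale.Agent.P333 Vale.Agent.Lib.PolyTime Vale.Agent.P318.NPH

variable {A : Set Word} {α β γ : Type*} [Enc α] [Enc β] [Enc γ]

/-! ### Tests -/

theorem PT_flatMap4 {f : α → ℕ → List β} (h : ∀ j : ℕ, PT A (fun x => f x j)) :
    PT A (fun x => (List.range 4).flatMap (f x)) := by
  refine (PT.append (h 0) (PT.append (h 1) (PT.append (h 2) (h 3)))).congr fun x => ?_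
  have : List.range 4 = [0, 1, 2, 3] := rfl
  rw [this]
  simp

theorem PT_posN {q P M t : α → ℕ} {π : α → List ℕ} (hq : PT A q) (hqb : PBd q) (hP : PT A P)
    (hM : PT A M) (hMb : PBd M) (hπ : PT A π) (ht : PT A t) :
    PT A (fun x => posN (q x) (P x) (M x) (π x) (t x)) := by
  unfold posN
  refine PT_flatMap4 fun j => ?_
  have hQ : PT A (fun x => q x ^ M x) := PT.pow hq hM hMb
  refine PT_mapRange (k := fun x => q x - 1) (hq.sub (PT.const 1)) (PBd.sub hqb _) ?_
  have c1 : PT A (fun p : α × ℕ => p.1) := PT.fst'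
  refine PT_ptN (hq.comp c1) (hP.comp c1) (hM.comp c1) (PBd.fst hMb)
    ((PT.getD hπ (PT.const j) (PT.const 0)).comp c1)
    (((ht.div (hQ.powConst (2 * j))).mod hQ).comp c1)
    (((ht.div (hQ.powConst (2 * j + 1))).mod hQ).comp c1) ?_
  exact PT.add (PT.min PT.snd' ((hq.comp c1).sub (PT.const 1))) (PT.const 1)

theorem vIdx_le (I : List Eqn) (v : ℕ) : vIdx I v ≤ 3 * I.length := by
  unfold vIdx
  refine (List.takeWhile_prefix _).length_le.trans ?_
  unfold vars
  rw [List.length_flatMap]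
  simp only [List.length_cons, List.length_nil]
  rw [List.map_const', List.sum_replicate, smul_eq_mul]
  omega

/-- The point function may be replaced by its values at the numbers up to `3 |I|`. -/
theorem eqP_min (sp : ℕ → ℕ) (I : List Eqn) (e : Eqn) :
    eqP sp I e = eqP (fun v => sp (min v (3 * I.length))) I e := by
  unfold eqP
  simp only [min_eq_left (vIdx_le I _), min_self]

theorem PT_eqP {sp : α → ℕ → ℕ} {I : α → List Eqn} {e : α → Eqn}
    (hsp : PT A (fun p : α × ℕ => sp p.1 (min p.2 (3 * (I p.1).length))))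
    (hI : PT A I) (he : PT A e) : PT A (fun x => eqP (sp x) (I x) (e x)) := by
  have h : ∀ {v : α → ℕ}, PT A v → PT A (fun x => sp x (min (v x) (3 * (I x).length))) :=
    fun hv => hsp.comp (PT.pair PT.id hv)
  refine ((h (PT_vIdx hI he.fst.fst)).cons ((h (PT_vIdx hI he.fst.snd.fst)).cons
    ((h (PT_vIdx hI he.fst.snd.snd)).cons ((h ((PT.const 3).mul hI.length)).cons
      PT.nil)))).congr fun x => ?_
  rw [eqP_min]
  rfl

/-! ### Numbers -/

section numbers

variable {q Q l : α → ℕ}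

theorem PT_bV (hq : PT A q) (hQ : PT A Q) (hl : PT A l) :
    PT A (fun x => bV (q x) (Q x) (l x)) :=
  (hl.mul (hQ.powConst 6)).mul ((PT_w2N hq).mul ((PT_w2N hq).sub (PT.const 1)))

theorem PBd_bV (hq : PBd q) (hQ : PBd Q) (hl : PBd l) :
    PBd (fun x => bV (q x) (Q x) (l x)) :=
  (hl.mul (hQ.pow 6)).mul ((PBd_w2N hq).mul (PBd.sub (PBd_w2N hq) _))

theorem PT_aV (hq : PT A q) (hQ : PT A Q) (hl : PT A l) :
    PT A (fun x => aV (q x) (Q x) (l x)) := ((PT.const 8).mul (PT_bV hq hQ hl)).mul hQ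

theorem PBd_aV (hq : PBd q) (hQ : PBd Q) (hl : PBd l) :
    PBd (fun x => aV (q x) (Q x) (l x)) := ((PBd.const 8).mul (PBd_bV hq hQ hl)).mul hQ

theorem PT_stV (hq : PT A q) (hQ : PT A Q) (hl : PT A l) :
    PT A (fun x => stV (q x) (Q x) (l x)) :=
  (hl.mul (hQ.powConst 8)).mul ((PT_w2N hq).add (PT.const 1))

theorem PBd_stV (hq : PBd q) (hQ : PBd Q) (hl : PBd l) :
    PBd (fun x => stV (q x) (Q x) (l x)) :=
  (hl.mul (hQ.pow 8)).mul ((PBd_w2N hq).add (PBd.const 1))

theorem PT_lV (hq : PT A q) (hQ : PT A Q) (hl : PT A l) :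
    PT A (fun x => lV (q x) (Q x) (l x)) :=
  (((PT.const (10 ^ 4)).mul (hq.powConst 2)).mul (PT_stV hq hQ hl)).mul (PT_aV hq hQ hl)

theorem PBd_lV (hq : PBd q) (hQ : PBd Q) (hl : PBd l) :
    PBd (fun x => lV (q x) (Q x) (l x)) :=
  (((PBd.const (10 ^ 4)).mul (hq.pow 2)).mul (PBd_stV hq hQ hl)).mul (PBd_aV hq hQ hl)

theorem PT_bigV (hq : PT A q) (hQ : PT A Q) (hl : PT A l) :
    PT A (fun x => bigV (q x) (Q x) (l x)) := ((PT.const 4).mul (PT_aV hq hQ hl)).mul hQ

theorem PBd_bigV (hq : PBd q) (hQ : PBd Q) (hl : PBd l) :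
    PBd (fun x => bigV (q x) (Q x) (l x)) := ((PBd.const 4).mul (PBd_aV hq hQ hl)).mul hQ

theorem PT_nV (hq : PT A q) (hQ : PT A Q) (hl : PT A l) :
    PT A (fun x => nV (q x) (Q x) (l x)) :=
  (((PT.const 3).mul hQ).mul (PT_lV hq hQ hl)).add (PT_stV hq hQ hl)

theorem PBd_nV (hq : PBd q) (hQ : PBd Q) (hl : PBd l) :
    PBd (fun x => nV (q x) (Q x) (l x)) :=
  (((PBd.const 3).mul hQ).mul (PBd_lV hq hQ hl)).add (PBd_stV hq hQ hl)

theorem PT_denV (hq : PT A q) (hQ : PT A Q) (hl : PT A l) :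
    PT A (fun x => denV (q x) (Q x) (l x)) :=
  ((PT.const 36).mul (hQ.powConst 2)).mul ((PT_lV hq hQ hl).powConst 2)

theorem PT_constV {I : α → List Eqn} (hq : PT A q) (hQ : PT A Q) (hI : PT A I) :
    PT A (fun x => constV (q x) (Q x) (I x)) := by
  unfold constV
  refine (hQ.powConst 8).mul (PT.sum ?_)
  exact PT.map (f := fun x (e : Eqn) => dN (w2N (q x)) e.2.toNat) hI
    (PT_dN ((PT_w2N hq).comp PT.fst') (PT_toNat PT.snd'.snd))

theorem PT_numV {I : α → List Eqn} (hq : PT A q) (hQ : PT A Q) (hI : PT A I) :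
    PT A (fun x => numV (q x) (Q x) (I x)) := by
  unfold numV
  exact (((((PT.const 16).mul (PT_aV hq hQ hI.length)).mul hQ).add
    (((PT.const 2).mul (PT_bV hq hQ hI.length)).mul (hQ.powConst 2))).add
    ((PT.const 8).mul (PT_constV hq hQ hI))).add (hI.length.mul (hQ.powConst 8))

end numbers

/-! ### The graph -/

section graph

variable {q P M n1 : α → ℕ} {sp : α → ℕ → ℕ} {I : α → List Eqn}

theorem PT_testE (hq : PT A q) (hqb : PBd q) (hP : PT A P) (hM : PT A M) (hMb : PBd M)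
    (hQb : PBd (fun x => q x ^ M x))
    (hsp : PT A (fun p : α × ℕ => sp p.1 (min p.2 (3 * (I p.1).length)))) (hn : PT A n1)
    (hI : PT A I) :
    PT A (fun x => testE (q x) (P x) (M x) (sp x) (n1 x) (I x)) := by
  unfold testE
  have hQ : PT A (fun x => q x ^ M x) := PT.pow hq hM hMb
  refine PT.flatMap (f := fun x i => (List.range ((q x ^ M x) ^ 8)).flatMap fun t =>
    gadget (q x ^ M x) (2 * q x ^ M x) 1 ((I x).getD i ((0, 0, 0), false)).2.toNat
      (posN (q x) (P x) (M x)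
        (eqP (sp x) (I x) ((I x).getD i ((0, 0, 0), false))) t)
      (n1 x + (i * (q x ^ M x) ^ 8 + t) * (w2N (q x) + 1)))
    (PT.range hI.length (PBd.length hI)) ?_
  refine PT.flatMap (f := fun (p : α × ℕ) t =>
    gadget (q p.1 ^ M p.1) (2 * q p.1 ^ M p.1) 1 ((I p.1).getD p.2 ((0, 0, 0), false)).2.toNat
      (posN (q p.1) (P p.1) (M p.1)
        (eqP (sp p.1) (I p.1) ((I p.1).getD p.2 ((0, 0, 0), false))) t)
      (n1 p.1 + (p.2 * (q p.1 ^ M p.1) ^ 8 + t) * (w2N (q p.1) + 1)))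
    (PT.range ((hQ.powConst 8).comp PT.fst') (PBd.fst (hQb.pow 8))) ?_
  have c1 : PT A (fun p : (α × ℕ) × ℕ => p.1.1) := PT.fst'.fst
  have hQ' : PT A (fun p : (α × ℕ) × ℕ => q p.1.1 ^ M p.1.1) := hQ.comp c1
  have he : PT A (fun p : (α × ℕ) × ℕ => (I p.1.1).getD p.1.2 ((0, 0, 0), false)) :=
    PT.getD (hI.comp c1) PT.fst'.snd (PT.const _)
  refine PT_gadget hQ' ((PT.const 2).mul hQ') (PT.const 1) (PT_toNat he.snd) ?_ ?_
  · refine PT_posN (hq.comp c1) (PBd.fst (PBd.fst hqb)) (hP.comp c1) (hM.comp c1)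
      (PBd.fst (PBd.fst hMb)) ?_ PT.snd'
    refine PT_eqP (sp := fun p : (α × ℕ) × ℕ => sp p.1.1) (I := fun p => I p.1.1) ?_ (hI.comp c1)
      he
    exact hsp.comp (PT.pair PT.fst'.fst.fst PT.snd')
  · exact PT.add (hn.comp c1) (PT.mul (PT.add (PT.mul PT.fst'.snd (hQ'.powConst 8)) PT.snd')
      (PT.add (PT_w2N (hq.comp c1)) (PT.const 1)))

theorem PT_allV (hq : PT A q) (hqb : PBd q) (hP : PT A P) (hM : PT A M) (hMb : PBd M)
    (hQb : PBd (fun x => q x ^ M x))
    (hsp : PT A (fun p : α × ℕ => sp p.1 (min p.2 (3 * (I p.1).length)))) (hI : PT A I) :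
    PT A (fun x => allV (q x) (P x) (M x) (sp x) (I x)) := by
  unfold allV
  have hQ : PT A (fun x => q x ^ M x) := PT.pow hq hM hMb
  have hl := hI.length
  have hlb : PBd (fun x => (I x).length) := PBd.length hI
  have hL := PT_lV hq hQ hl
  exact PT.append (PT.append
    (PT_clusterE hQ hQb hL (PBd_lV hqb hQb hlb) (PT_bigV hq hQ hl))
    (PT_hubE hQ hQb (PT_aV hq hQ hl)))
    (PT_testE hq hqb hP hM hMb hQb hsp (((PT.const 3).mul hQ).mul hL) hI)

theorem allV_cap {q P M : ℕ} {sp : ℕ → ℕ} {I : List Eqn} {e : ℕ × ℕ × ℕ}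
    (he : e ∈ allV q P M sp I) :
    e.2.2 ≤ bigV q (q ^ M) I.length + aV q (q ^ M) I.length + (4 * (q - 1) + 1) := by
  simp only [allV, List.mem_append] at he
  rcases he with (he | he) | he
  · have : e.2.2 = bigV q (q ^ M) I.length := by
      simp only [clusterE, List.mem_append] at he
      rcases he with (he | he) | he
      · obtain ⟨u, _, he⟩ := List.mem_flatMap.1 he
        obtain ⟨j, _, rfl⟩ := List.mem_map.1 he
        rfl
      · obtain ⟨j, _, rfl⟩ := List.mem_map.1 he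
        rfl
      · obtain ⟨j, _, rfl⟩ := List.mem_map.1 he
        rfl
    omega
  · obtain ⟨p, _, he⟩ := List.mem_flatMap.1 he
    simp only [List.mem_cons, List.not_mem_nil, or_false] at he
    have : e.2.2 = aV q (q ^ M) I.length := by rcases he with rfl | rfl <;> rfl
    omega
  · obtain ⟨i, _, he⟩ := List.mem_flatMap.1 he
    obtain ⟨t, _, he⟩ := List.mem_flatMap.1 he
    have h := gadget_cap he
    rw [posN, List.length_flatMap] at h
    simp only [List.length_map, List.length_range, List.map_const', List.sum_replicate,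
      smul_eq_mul, one_mul] at h
    omega

theorem PBd_allV_sum (hq : PT A q) (hqb : PBd q) (hP : PT A P) (hM : PT A M) (hMb : PBd M)
    (hQb : PBd (fun x => q x ^ M x))
    (hsp : PT A (fun p : α × ℕ => sp p.1 (min p.2 (3 * (I p.1).length)))) (hI : PT A I) :
    PBd (fun x => ((allV (q x) (P x) (M x) (sp x) (I x)).map fun e => e.2.2).sum) := by
  have hlb : PBd (fun x => (I x).length) := PBd.length hI
  have h1 : PBd (fun x => bigV (q x) (q x ^ M x) (I x).length +
      aV (q x) (q x ^ M x) (I x).length + (4 * (q x - 1) + 1)) :=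
    ((PBd_bigV hqb hQb hlb).add (PBd_aV hqb hQb hlb)).add
      (((PBd.const 4).mul (PBd.sub hqb _)).add (PBd.const 1))
  have h2 := PBd.length (PT_allV hq hqb hP hM hMb hQb hsp hI)
  refine (h2.mul h1).mono fun x => ?_
  have h3 := List.sum_le_card_nsmul ((allV (q x) (P x) (M x) (sp x) (I x)).map
    fun e => e.2.2) _ (fun c hc => by
      obtain ⟨e, he, rfl⟩ := List.mem_map.1 hc
      exact allV_cap he)
  rwa [List.length_map, smul_eq_mul] at h3

/-! ### As functions of `q`, `M`, the point function and the system; `hsp` only concerns the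
values of the point function at numbers up to `3 |I|` -/

theorem PT_edgesG' (hq : PT A q) (hqb : PBd q) (hM : PT A M) (hMb : PBd M)
    (hQb : PBd (fun x => q x ^ M x))
    (hsp : PT A (fun p : α × ℕ => sp p.1 (min p.2 (3 * (I p.1).length)))) (hI : PT A I) :
    PT A (fun x => edgesG (q x) (M x) (sp x) (I x)) :=
  PT_allV hq hqb (PT_findP hq hqb) hM hMb hQb hsp hI

theorem PBd_edgesG_sum' (hq : PT A q) (hqb : PBd q) (hM : PT A M) (hMb : PBd M)
    (hQb : PBd (fun x => q x ^ M x))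
    (hsp : PT A (fun p : α × ℕ => sp p.1 (min p.2 (3 * (I p.1).length)))) (hI : PT A I) :
    PBd (fun x => ((edgesG (q x) (M x) (sp x) (I x)).map fun e => e.2.2).sum) :=
  PBd_allV_sum hq hqb (PT_findP hq hqb) hM hMb hQb hsp hI

theorem PT_vertsG (hq : PT A q) (hM : PT A M) (hMb : PBd M) (hI : PT A I) :
    PT A (fun x => vertsG (q x) (M x) (I x)) :=
  PT_nV hq (PT.pow hq hM hMb) hI.length

theorem PBd_vertsG (hqb : PBd q) (hQb : PBd (fun x => q x ^ M x)) (hI : PT A I) :
    PBd (fun x => vertsG (q x) (M x) (I x)) :=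
  PBd_nV hqb hQb (PBd.length hI)

theorem PT_numG (hq : PT A q) (hM : PT A M) (hMb : PBd M) (hI : PT A I) :
    PT A (fun x => numG (q x) (M x) (I x)) :=
  PT_numV hq (PT.pow hq hM hMb) hI

theorem PT_denG (hq : PT A q) (hM : PT A M) (hMb : PBd M) (hI : PT A I) :
    PT A (fun x => denG (q x) (M x) (I x)) :=
  PT_denV hq (PT.pow hq hM hMb) hI.length

theorem PT_rG' (hq : PT A q) (hqb : PBd q) (hM : PT A M) (hMb : PBd M)
    (hQb : PBd (fun x => q x ^ M x))
    (hsp : PT A (fun p : α × ℕ => sp p.1 (min p.2 (3 * (I p.1).length)))) (hI : PT A I) :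
    PT A (fun x => rG (q x) (M x) (sp x) (I x)) :=
  PT_rN (PT_vertsG hq hM hMb hI) (PT_edgesG' hq hqb hM hMb hQb hsp hI)

theorem PBd_rG' (hq : PT A q) (hqb : PBd q) (hM : PT A M) (hMb : PBd M)
    (hQb : PBd (fun x => q x ^ M x))
    (hsp : PT A (fun p : α × ℕ => sp p.1 (min p.2 (3 * (I p.1).length)))) (hI : PT A I) :
    PBd (fun x => rG (q x) (M x) (sp x) (I x)) :=
  ((PBd.const 16).mul ((PBd_vertsG hqb hQb hI).add (PBd.const 1))).mul
    ((PBd_edgesG_sum' hq hqb hM hMb hQb hsp hI).add (PBd.const 1))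

theorem PT_graphG' (hq : PT A q) (hqb : PBd q) (hM : PT A M) (hMb : PBd M)
    (hQb : PBd (fun x => q x ^ M x))
    (hsp : PT A (fun p : α × ℕ => sp p.1 (min p.2 (3 * (I p.1).length)))) (hI : PT A I) :
    PT A (fun x => graphG (q x) (M x) (sp x) (I x)) :=
  PT_blowMat (PT_vertsG hq hM hMb hI) (PBd_vertsG hqb hQb hI)
    (PT_rG' hq hqb hM hMb hQb hsp hI) (PBd_rG' hq hqb hM hMb hQb hsp hI)
    (PT_edgesG' hq hqb hM hMb hQb hsp hI)

/-- The condition on the point function, when it is computable for all arguments. -/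
theorem PT_spMin (hsp : PT A (fun p : α × ℕ => sp p.1 p.2)) (hI : PT A I) :
    PT A (fun p : α × ℕ => sp p.1 (min p.2 (3 * (I p.1).length))) :=
  hsp.comp (PT.pair PT.fst' (PT.min PT.snd' ((PT.const 3).mul (hI.comp PT.fst').length)))

theorem PT_edgesG (hq : PT A q) (hqb : PBd q) (hM : PT A M) (hMb : PBd M)
    (hQb : PBd (fun x => q x ^ M x)) (hsp : PT A (fun p : α × ℕ => sp p.1 p.2)) (hI : PT A I) :
    PT A (fun x => edgesG (q x) (M x) (sp x) (I x)) :=
  PT_edgesG' hq hqb hM hMb hQb (PT_spMin hsp hI) hI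

theorem PT_rG (hq : PT A q) (hqb : PBd q) (hM : PT A M) (hMb : PBd M)
    (hQb : PBd (fun x => q x ^ M x)) (hsp : PT A (fun p : α × ℕ => sp p.1 p.2)) (hI : PT A I) :
    PT A (fun x => rG (q x) (M x) (sp x) (I x)) :=
  PT_rG' hq hqb hM hMb hQb (PT_spMin hsp hI) hI

theorem PBd_rG (hq : PT A q) (hqb : PBd q) (hM : PT A M) (hMb : PBd M)
    (hQb : PBd (fun x => q x ^ M x)) (hsp : PT A (fun p : α × ℕ => sp p.1 p.2)) (hI : PT A I) :
    PBd (fun x => rG (q x) (M x) (sp x) (I x)) :=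
  PBd_rG' hq hqb hM hMb hQb (PT_spMin hsp hI) hI

theorem PT_graphG (hq : PT A q) (hqb : PBd q) (hM : PT A M) (hMb : PBd M)
    (hQb : PBd (fun x => q x ^ M x)) (hsp : PT A (fun p : α × ℕ => sp p.1 p.2)) (hI : PT A I) :
    PT A (fun x => graphG (q x) (M x) (sp x) (I x)) :=
  PT_graphG' hq hqb hM hMb hQb (PT_spMin hsp hI) hI

end graph

/-! ### (A) First choice of the parameters -/

theorem PT_MA (T k0 : ℕ) : PT A (fun I : List Eqn => MA T k0 I) :=
  (PT_mOf T k0).add (PT.const 1)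

theorem PBd_MA (T k0 : ℕ) : PBd (fun I : List Eqn => MA T k0 I) :=
  (PBd_mOf T k0).add (PBd.const 1)

theorem PBd_QA (T k0 : ℕ) (hT : 1 ≤ T) : PBd (fun I : List Eqn => qI T k0 I ^ MA T k0 I) :=
  PBd_QI T k0 hT

theorem PT_spA (T k0 : ℕ) : PT A (fun p : List Eqn × ℕ => spA T k0 p.1 p.2) :=
  PT_sysN ((PT_qI T k0).comp PT.fst') ((PT_two_pow (PT_rOf T k0) (PBd_rOf T k0)).comp PT.fst')
    ((PT_mOf T k0).comp PT.fst') (PBd.fst (PBd_mOf T k0)) PT.snd'

theorem PT_edgesA (T k0 : ℕ) (hT : 1 ≤ T) :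
    PT A (fun I : List Eqn => edgesG (qI T k0 I) (MA T k0 I) (spA T k0 I) I) :=
  PT_edgesG (PT_qI T k0) (PBd_qI T k0) (PT_MA T k0) (PBd_MA T k0) (PBd_QA T k0 hT) (PT_spA T k0)
    PT.id

theorem PT_vertsA (T k0 : ℕ) : PT A (fun I : List Eqn => vertsG (qI T k0 I) (MA T k0 I) I) :=
  PT_vertsG (PT_qI T k0) (PT_MA T k0) (PBd_MA T k0) PT.id

theorem PT_numA (T k0 : ℕ) : PT A (fun I : List Eqn => numG (qI T k0 I) (MA T k0 I) I) :=
  PT_numG (PT_qI T k0) (PT_MA T k0) (PBd_MA T k0) PT.id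

theorem PT_denA (T k0 : ℕ) : PT A (fun I : List Eqn => denG (qI T k0 I) (MA T k0 I) I) :=
  PT_denG (PT_qI T k0) (PT_MA T k0) (PBd_MA T k0) PT.id

theorem PT_rA (T k0 : ℕ) (hT : 1 ≤ T) :
    PT A (fun I : List Eqn => rG (qI T k0 I) (MA T k0 I) (spA T k0 I) I) :=
  PT_rG (PT_qI T k0) (PBd_qI T k0) (PT_MA T k0) (PBd_MA T k0) (PBd_QA T k0 hT) (PT_spA T k0)
    PT.id

/-- The graph of the first version is computable in polynomial time. -/
theorem PT_graphA (T k0 : ℕ) (hT : 1 ≤ T) :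
    PT A (fun I : List Eqn => graphG (qI T k0 I) (MA T k0 I) (spA T k0 I) I) :=
  PT_graphG (PT_qI T k0) (PBd_qI T k0) (PT_MA T k0) (PBd_MA T k0) (PBd_QA T k0 hT) (PT_spA T k0)
    PT.id

/-! ### (B) Second choice of the parameters: `q = 2 ^ s` is constant -/

section B

variable {K : α → ℕ} {I : α → List Eqn}

theorem PBd_of_two_pow (hKb : PBd (fun x => 2 ^ K x)) : PBd K :=
  hKb.mono fun _ => Nat.lt_two_pow_self.le

theorem PBd_MB (d : ℕ) (hKb : PBd (fun x => 2 ^ K x)) : PBd (fun x => d * K x + 1) :=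
  ((PBd.const d).mul (PBd_of_two_pow hKb)).add (PBd.const 1)

theorem PT_MB (d : ℕ) (hK : PT A K) : PT A (fun x => d * K x + 1) :=
  ((PT.const d).mul hK).add (PT.const 1)

theorem PBd_QB (s d : ℕ) (hKb : PBd (fun x => 2 ^ K x)) :
    PBd (fun x => (2 ^ s) ^ (d * K x + 1)) := by
  refine ((hKb.pow (s * d)).mul (PBd.const (2 ^ s))).mono fun x => le_of_eq ?_
  rw [← pow_mul, ← pow_mul, ← pow_add]
  congr 1
  ring

theorem PT_sysB_min (s d : ℕ) (hK : PT A K) (hKb : PBd (fun x => 2 ^ K x)) (hI : PT A I) :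
    PT A (fun p : α × ℕ => sysB (2 ^ s) (K p.1) d (min p.2 (3 * (I p.1).length))) := by
  unfold sysB
  have hlb : PBd (fun x => (I x).length) := PBd.length hI
  have hK1 : PT A (fun p : α × ℕ => K p.1) := hK.comp PT.fst'
  have hKb1 : PBd (fun p : α × ℕ => K p.1) := PBd.fst (PBd_of_two_pow hKb)
  have hv : PT A (fun p : α × ℕ => min p.2 (3 * (I p.1).length)) :=
    PT.min PT.snd' ((PT.const 3).mul (hI.comp PT.fst').length)
  have hvb : PBd (fun p : α × ℕ => min p.2 (3 * (I p.1).length)) :=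
    ((PBd.const 3).mul (PBd.fst hlb)).mono fun _ => min_le_right _ _
  have key : ∀ j : ℕ, PT A (fun p : α × ℕ => (2 ^ s) ^ (K p.1 * j +
      min p.2 (3 * (I p.1).length) / K p.1 ^ j % K p.1)) := by
    intro j
    refine PT.pow (PT.const (2 ^ s)) ((hK1.mul (PT.const j)).add
      ((hv.div (hK1.powConst j)).mod hK1)) ?_
    refine ((hKb1.mul (PBd.const j)).add hvb).mono fun p => ?_
    exact Nat.add_le_add_left ((Nat.mod_le _ _).trans (Nat.div_le_self _ _)) _
  have gen : ∀ d : ℕ, PT A (fun p : α × ℕ => ((List.range d).map fun j =>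
      (2 ^ s) ^ (K p.1 * j + min p.2 (3 * (I p.1).length) / K p.1 ^ j % K p.1)).sum) := by
    intro d
    induction d with
    | zero => exact (PT.const 0).congr fun p => by simp
    | succ d ih =>
      refine (ih.add (key d)).congr fun p => ?_
      rw [List.range_succ, List.map_append, List.sum_append]
      simp
  exact gen d

theorem PT_edgesB (s d : ℕ) (hK : PT A K) (hKb : PBd (fun x => 2 ^ K x)) (hI : PT A I) :
    PT A (fun x => edgesG (2 ^ s) (d * K x + 1) (sysB (2 ^ s) (K x) d) (I x)) :=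
  PT_edgesG' (PT.const _) (PBd.const _) (PT_MB d hK) (PBd_MB d hKb) (PBd_QB s d hKb)
    (PT_sysB_min s d hK hKb hI) hI

theorem PT_vertsB (s d : ℕ) (hK : PT A K) (hKb : PBd (fun x => 2 ^ K x)) (hI : PT A I) :
    PT A (fun x => vertsG (2 ^ s) (d * K x + 1) (I x)) :=
  PT_vertsG (PT.const _) (PT_MB d hK) (PBd_MB d hKb) hI

theorem PT_numB (s d : ℕ) (hK : PT A K) (hKb : PBd (fun x => 2 ^ K x)) (hI : PT A I) :
    PT A (fun x => numG (2 ^ s) (d * K x + 1) (I x)) :=
  PT_numG (PT.const _) (PT_MB d hK) (PBd_MB d hKb) hI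

theorem PT_denB (s d : ℕ) (hK : PT A K) (hKb : PBd (fun x => 2 ^ K x)) (hI : PT A I) :
    PT A (fun x => denG (2 ^ s) (d * K x + 1) (I x)) :=
  PT_denG (PT.const _) (PT_MB d hK) (PBd_MB d hKb) hI

theorem PT_rB (s d : ℕ) (hK : PT A K) (hKb : PBd (fun x => 2 ^ K x)) (hI : PT A I) :
    PT A (fun x => rG (2 ^ s) (d * K x + 1) (sysB (2 ^ s) (K x) d) (I x)) :=
  PT_rG' (PT.const _) (PBd.const _) (PT_MB d hK) (PBd_MB d hKb) (PBd_QB s d hKb)
    (PT_sysB_min s d hK hKb hI) hI

/-- The graph of the second version is computable in polynomial time. -/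
theorem PT_graphB (s d : ℕ) (hK : PT A K) (hKb : PBd (fun x => 2 ^ K x)) (hI : PT A I) :
    PT A (fun x => graphG (2 ^ s) (d * K x + 1) (sysB (2 ^ s) (K x) d) (I x)) :=
  PT_graphG' (PT.const _) (PBd.const _) (PT_MB d hK) (PBd_MB d hKb) (PBd_QB s d hKb)
    (PT_sysB_min s d hK hKb hI) hI

end B

/-! ### (C) Padded inputs -/

/-- The number of leading `true`s. -/
def lead (w : List Bool) : ℕ := (w.takeWhile id).length

/-- What follows the first `false`. -/
def rest (w : List Bool) : List Bool := (w.dropWhile id).tail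

theorem lead_replicate (n : ℕ) (x : List Bool) : lead (List.replicate n true ++ false :: x) = n := by
  induction n with
  | zero => simp [lead]
  | succ n ih =>
    rw [lead] at ih ⊢
    rw [List.replicate_succ, List.cons_append, List.takeWhile_cons_of_pos rfl, List.length_cons, ih]

theorem rest_replicate (n : ℕ) (x : List Bool) : rest (List.replicate n true ++ false :: x) = x := by
  induction n with
  | zero => simp [rest]
  | succ n ih =>
    rw [rest] at ih ⊢
    rw [List.replicate_succ, List.cons_append, List.dropWhile_cons_of_pos rfl, ih]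

theorem rest_eq_drop (w : List Bool) : rest w = w.drop (lead w + 1) := by
  induction w with
  | nil => rfl
  | cons b w ih =>
    rcases b with _ | _
    · rfl
    · rw [rest] at ih ⊢
      rw [List.dropWhile_cons_of_pos rfl, ih, lead, lead, List.takeWhile_cons_of_pos rfl,
        List.length_cons]
      rfl

theorem lead_le (w : List Bool) : lead w ≤ w.length := (List.takeWhile_prefix _).length_le

theorem PT_lead {f : α → Raw} (hf : PT A f) : PT A (fun a => lead (f a).w) :=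
  PT.length (PT.takeWhile (f := fun _ b => b) (PT.listOfRaw hf) PT.snd')

theorem PBd_lead {f : α → Raw} (hf : PT A f) : PBd (fun a => lead (f a).w) :=
  hf.pbd.mono fun _ => lead_le _

theorem PT_rest {f : α → Raw} (hf : PT A f) : PT A (fun a => Raw.mk (rest (f a).w)) :=
  (PT.rawDrop hf ((PT_lead hf).add (PT.const 1))).congr fun a => by rw [rest_eq_drop]

/-- A function of the rest of a padded word. -/
theorem PT_pad {Φ : List Bool → β} (h : ∃ g : Word → Word, FP A g ∧ ∀ x, g x = enc (Φ x)) :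
    PT A (fun w : Raw => Φ (rest w.w)) := by
  obtain ⟨g, hg, hg'⟩ := h
  have h1 : PT A (fun w : Raw => Φ w.w) := ⟨g, hg, fun w => hg' _⟩
  exact (h1.comp (PT_rest PT.id)).congr fun w => rfl

/-- A number of size logarithmic in the padding. -/
theorem PBd_two_pow_size {f : α → ℕ} (hf : PBd f) : PBd (fun a => 2 ^ Nat.size (f a)) := by
  refine ((PBd.const 2).mul (hf.add (PBd.const 1))).mono fun a => ?_
  rcases Nat.eq_zero_or_pos (f a) with h0 | h0
  · rw [h0]; simp
  · exact (two_pow_size_le h0).trans (by omega)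

end Vale.Agent.P318.NPV
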