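import Vale.Agent.P318.NPH.AlgComp

/-!
The tests with four independent curves: pairwise independence of the positions.
-/

set_option linter.unusedSectionVars false

namespace Vale.Agent.P318.NPV

open Finset Vale.Agent.P318.NPH

section split

variable {ι Y : Type*} [Fintype ι] [DecidableEq ι] [Fintype Y]

theorem sum_update (a : ι) (f : (ι → Y) → ℕ) :
    ∑ t : ι → Y, ∑ y : Y, f (Function.update t a y) = Fintype.card Y * ∑ t : ι → Y, f t := by
  classical
  have h1 : ∀ g : (ι → Y) → ℕ, ∑ t : ι → Y, g t =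
      ∑ r : {j // j ≠ a} → Y, ∑ z : Y, g ((Equiv.funSplitAt a Y).symm (z, r)) := by
    intro g
    rw [← (Equiv.funSplitAt a Y).symm.sum_comp g, Fintype.sum_prod_type, sum_comm]
  rw [h1, h1 f, mul_sum]
  refine sum_congr rfl fun r _ => ?_
  have h2 : ∀ z : Y, ∑ y : Y, f (Function.update ((Equiv.funSplitAt a Y).symm (z, r)) a y) =
      ∑ y : Y, f ((Equiv.funSplitAt a Y).symm (y, r)) := by
    intro z
    refine sum_congr rfl fun y _ => congrArg f ?_
    funext j
    by_cases hj : j = a
    · subst hj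
      simp [Equiv.funSplitAt, Equiv.piSplitAt]
    · rw [Function.update_of_ne hj]
      simp [Equiv.funSplitAt, Equiv.piSplitAt, hj]
  rw [sum_congr rfl fun z _ => h2 z, sum_const, card_univ, smul_eq_mul]

end split

section tests

variable {K X : Type*} [Field K] [Fintype K] [DecidableEq K] [AddCommGroup X] [Module K X]
  [Fintype X]

theorem card_pos : 0 < Fintype.card X := Fintype.card_pos_iff.2 ⟨0⟩

/-- Positions of the tests: `t j` are the two directions of the curve number `j`. -/
def qpos {J : Type*} (π : J → X) (t : J → X × X) (i : J × {u : K // u ≠ 0}) : X :=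
  cpt (π i.1) (t i.1).1 (t i.1).2 i.2.1

theorem sum_curve_pair (p : X) (u v : K) (hu : u ≠ 0) (hv : v ≠ 0) (huv : u ≠ v)
    (F : X → X → ℕ) :
    ∑ y : X × X, F (cpt p y.1 y.2 u) (cpt p y.1 y.2 v) = ∑ a, ∑ b, F a b := by
  rw [Fintype.sum_prod_type]
  have hd : u * (v * v) - (u * u) * v ≠ 0 := by
    have : u * (v * v) - (u * u) * v = u * v * (v - u) := by ring
    rw [this]
    exact mul_ne_zero (mul_ne_zero hu hv) (sub_ne_zero.2 (Ne.symm huv))
  have := sum_two u (u * u) v (v * v) hd p p F
  rw [← this]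
  refine sum_congr rfl fun h _ => sum_congr rfl fun g _ => ?_
  simp only [cpt, add_assoc]

theorem sum_curve (p : X) (u : K) (hu : u ≠ 0) (F : X → ℕ) :
    ∑ y : X × X, F (cpt p y.1 y.2 u) = Fintype.card X * ∑ a, F a := by
  rw [Fintype.sum_prod_type, sum_comm]
  have h2 : ∀ g : X, ∑ h : X, F (cpt p h g u) = ∑ a, F a := by
    intro g
    have hb : Function.Bijective (fun h : X => cpt p h g u) := by
      refine (Finite.injective_iff_bijective).1 fun x y hxy => ?_
      simp only [cpt, add_left_inj, add_right_inj] at hxy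
      exact smul_right_injective X hu hxy
    exact hb.sum_comp F
  rw [sum_congr rfl fun g _ => h2 g, sum_const, card_univ, smul_eq_mul]

theorem qpos_pair {J : Type*} [Fintype J] [DecidableEq J] (π : J → X)
    (i j : J × {u : K // u ≠ 0}) (hij : i ≠ j) (F : X → X → ℕ) :
    ∑ t : J → X × X, F (qpos π t i) (qpos π t j) =
      Fintype.card X ^ (2 * (Fintype.card J - 1)) * ∑ a, ∑ b, F a b := by
  obtain ⟨i, u, hu⟩ := i
  obtain ⟨j, v, hv⟩ := j
  have hX : 0 < Fintype.card X := card_pos
  have hcT : Fintype.card (J → X × X) = (Fintype.card X ^ 2) ^ Fintype.card J := by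
    rw [Fintype.card_fun, Fintype.card_prod, sq]
  by_cases h : i = j
  · subst h
    have huv : u ≠ v := fun h => hij (by subst h; rfl)
    have h1 := sum_update i (fun t : J → X × X => F (qpos π t (i, ⟨u, hu⟩)) (qpos π t (i, ⟨v, hv⟩)))
    have h2 : ∀ t : J → X × X, ∑ y : X × X, F (qpos π (Function.update t i y) (i, ⟨u, hu⟩))
        (qpos π (Function.update t i y) (i, ⟨v, hv⟩)) = ∑ a, ∑ b, F a b := by
      intro t
      rw [← sum_curve_pair (π i) u v hu hv huv F]
      refine sum_congr rfl fun y _ => ?_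
      simp only [qpos, Function.update_self]
    rw [sum_congr rfl fun t _ => h2 t, sum_const, card_univ, smul_eq_mul, hcT,
      Fintype.card_prod] at h1
    have hJ : 1 ≤ Fintype.card J := Fintype.card_pos_iff.2 ⟨i⟩
    obtain ⟨c, hc⟩ : ∃ c, Fintype.card J = c + 1 := ⟨Fintype.card J - 1, by omega⟩
    rw [hc, Nat.add_sub_cancel]
    rw [hc] at h1
    refine Nat.eq_of_mul_eq_mul_left (Nat.mul_pos hX hX) ?_
    rw [← h1]
    ring
  · have h1 := sum_update j (fun t : J → X × X => F (qpos π t (i, ⟨u, hu⟩)) (qpos π t (j, ⟨v, hv⟩)))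
    have h1' := sum_update i (fun t : J → X × X => ∑ y : X × X,
      F (qpos π (Function.update t j y) (i, ⟨u, hu⟩)) (qpos π (Function.update t j y) (j, ⟨v, hv⟩)))
    have h2 : ∀ t : J → X × X, ∑ z : X × X, ∑ y : X × X,
        F (qpos π (Function.update (Function.update t i z) j y) (i, ⟨u, hu⟩))
        (qpos π (Function.update (Function.update t i z) j y) (j, ⟨v, hv⟩)) =
        Fintype.card X ^ 2 * ∑ a, ∑ b, F a b := by
      intro t
      have h3 : ∀ z y : X × X, F (qpos π (Function.update (Function.update t i z) j y) (i, ⟨u, hu⟩))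
        (qpos π (Function.update (Function.update t i z) j y) (j, ⟨v, hv⟩)) =
        F (cpt (π i) z.1 z.2 u) (cpt (π j) y.1 y.2 v) := by
        intro z y
        simp only [qpos, Function.update_self, Function.update_of_ne h]
      simp only [h3]
      rw [sum_curve (π i) u hu (fun a => ∑ y : X × X, F a (cpt (π j) y.1 y.2 v))]
      rw [sum_congr rfl fun a _ => sum_curve (π j) v hv (F a), ← mul_sum]
      ring
    rw [sum_congr rfl fun t _ => h2 t, sum_const, card_univ, smul_eq_mul, hcT,
      Fintype.card_prod, h1, Fintype.card_prod] at h1'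
    have hJ : 2 ≤ Fintype.card J := Fintype.one_lt_card_iff.2 ⟨i, j, h⟩
    obtain ⟨c, hc⟩ : ∃ c, Fintype.card J = c + 2 := ⟨Fintype.card J - 2, by omega⟩
    rw [hc, show c + 2 - 1 = c + 1 by omega]
    rw [hc] at h1'
    refine Nat.eq_of_mul_eq_mul_left (Nat.mul_pos (Nat.mul_pos hX hX) (Nat.mul_pos hX hX)) ?_
    calc _ = Fintype.card X * Fintype.card X * (Fintype.card X * Fintype.card X *
        ∑ t : J → X × X, F (qpos π t (i, ⟨u, hu⟩)) (qpos π t (j, ⟨v, hv⟩))) := by ring
      _ = _ := by rw [← h1']; ring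

/-- The quadratic part of the tests. -/
theorem qpos_quad {J : Type*} [Fintype J] [DecidableEq J] (π : J → X) (σ : X → Bool) :
    ∑ t : J → X × X, ones σ (qpos (K := K) π t) *
        (Fintype.card (J × {u : K // u ≠ 0}) - ones σ (qpos (K := K) π t)) =
      Fintype.card (J × {u : K // u ≠ 0}) * (Fintype.card (J × {u : K // u ≠ 0}) - 1) *
        Fintype.card X ^ (2 * (Fintype.card J - 1)) * (cnt σ * cnt (fun x => !σ x)) :=
  sum_quad σ (fun t => qpos π t) _ fun i j hij F => qpos_pair π i j hij F

end tests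

/-! ### Signs -/

/-- The character of `ZMod 2`. -/
def sg (z : ZMod 2) : ℤ := if z = 0 then 1 else -1

theorem sg_zero : sg 0 = 1 := rfl

theorem sg_add (a b : ZMod 2) : sg (a + b) = sg a * sg b := by
  revert a b; decide

theorem sg_sum {ι : Type*} (s : Finset ι) (f : ι → ZMod 2) :
    sg (∑ i ∈ s, f i) = ∏ i ∈ s, sg (f i) := by
  classical
  induction s using Finset.induction_on with
  | empty => simp [sg_zero]
  | insert a s ha ih => rw [sum_insert ha, prod_insert ha, sg_add, ih]

theorem sg_ne (a b : ZMod 2) : (if a ≠ b then 2 else 0 : ℤ) = 1 - sg b * sg a := by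
  revert a b; decide

theorem sg_abs (a : ZMod 2) : |sg a| = 1 := by
  revert a; decide

section bias

variable {K X : Type*} [Field K] [Fintype K] [DecidableEq K] [AddCommGroup X] [Module K X]
  [Fintype X]

/-- The value predicted by a curve. -/
def pre (K : Type*) [Field K] [Fintype K] [DecidableEq K] {X : Type*} [AddCommGroup X] [Module K X]
    (τ : X → ZMod 2) (p : X) (y : X × X) : ZMod 2 :=
  ∑ u : {u : K // u ≠ 0}, τ (cpt p y.1 y.2 u.1)

/-- The bias of the predictions. -/
def bias (K : Type*) [Field K] [Fintype K] [DecidableEq K] {X : Type*} [AddCommGroup X] [Module K X]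
    [Fintype X] (τ : X → ZMod 2) (p : X) : ℤ := ∑ y : X × X, sg (pre K τ p y)

theorem bias_abs (τ : X → ZMod 2) (p : X) : |bias K τ p| ≤ (Fintype.card X : ℤ) ^ 2 := by
  refine (abs_sum_le_sum_abs _ _).trans ?_
  rw [sum_congr rfl fun y _ => sg_abs _, sum_const, card_univ, Fintype.card_prod]
  simp [sq]

/-- Violated tests of an equation. -/
def badT (K : Type*) [Field K] [Fintype K] [DecidableEq K] {X : Type*} [AddCommGroup X] [Module K X]
    [Fintype X] {J : Type*} [Fintype J] [DecidableEq J] (τ : X → ZMod 2) (π : J → X)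
    (β : ZMod 2) : ℕ :=
  (univ.filter fun t : J → X × X => ∑ i, τ (qpos (K := K) π t i) ≠ β).card

theorem sum_qpos {J : Type*} [Fintype J] [DecidableEq J] (τ : X → ZMod 2) (π : J → X)
    (t : J → X × X) : ∑ i, τ (qpos (K := K) π t i) = ∑ j, pre K τ (π j) (t j) := by
  rw [Fintype.sum_prod_type]
  rfl

theorem two_badT {J : Type*} [Fintype J] [DecidableEq J] (τ : X → ZMod 2) (π : J → X)
    (β : ZMod 2) : 2 * (badT K τ π β : ℤ) =
      ((Fintype.card X : ℤ) ^ 2) ^ Fintype.card J - sg β * ∏ j, bias K τ (π j) := by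
  have h1 : 2 * (badT K τ π β : ℤ) =
      ∑ t : J → X × X, (1 - sg β * ∏ j, sg (pre K τ (π j) (t j))) := by
    rw [badT, card_filter, Nat.cast_sum, mul_sum]
    refine sum_congr rfl fun t _ => ?_
    rw [← sg_sum, ← sum_qpos, ← sg_ne]
    split_ifs <;> simp
  rw [h1, sum_sub_distrib, ← mul_sum]
  congr 1
  · rw [sum_const, card_univ, Fintype.card_fun, Fintype.card_prod]
    simp [sq]
  · congr 1
    have := Finset.prod_univ_sum (fun _ : J => (univ : Finset (X × X)))
      (fun j y => sg (pre K τ (π j) y))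
    rw [Fintype.piFinset_univ] at this
    rw [← this]
    rfl

end bias

end Vale.Agent.P318.NPV
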