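import Vale.Agent.P318.NPV.Weighted
import Vale.Agent.P318.NPH.Core

/-!
The gap for the unweighted graphs.
-/

namespace Vale.Agent.P318.NPV

open Finset Vale.Agent.P333 Vale.Agent.P318 Vale.Agent.P318.NPH

section

variable {s M : ℕ} {sp : ℕ → ℕ} {I : List Eqn}

/-- The facts on the graph of a system which are used later. -/
structure Gap (q M : ℕ) (sp : ℕ → ℕ) (I : List Eqn) : Prop where
  graph : IsGraph (graphG q M sp I)
  num : 0 < numG q M I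
  den : 0 < denG q M I
  r : 0 < rG q M sp I
  length : q ^ M ≤ (graphG q M sp I).length
  yes : 8 * minViolated I ≤ I.length → Phi (capU (graphG q M sp I)) ≤
    (numG q M I : ℝ) / ((denG q M I * rG q M sp I ^ 2 : ℕ) : ℝ)
  no : 3 * I.length ≤ 8 * minViolated I →
    (((4000 * q ^ 2 + 1) * numG q M I : ℕ) : ℝ) /
      ((denG q M I * (4000 * q ^ 2) * rG q M sp I ^ 2 : ℕ) : ℝ) ≤
      Phi (capU (graphG q M sp I))

theorem gapG (hq : 4 ≤ 2 ^ s) (hs : Sys (2 ^ s) M (3 * I.length) sp) (hl : 1 ≤ I.length)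
    (hI : Dist I) : Gap (2 ^ s) M sp I := by
  have hs1 : 1 ≤ s := by
    by_contra h
    have h0 : s = 0 := by omega
    rw [h0] at hq
    norm_num at hq
  obtain ⟨K, _, _, _, Z, φ, θ, hθ⟩ := exists_space' s M hs1
  have hQ : 1 ≤ (2 ^ s) ^ M := Nat.one_le_pow _ _ (by omega)
  have hL : 1 ≤ lV (2 ^ s) ((2 ^ s) ^ M) I.length := lV_pos hq hQ hl
  have hok : ∀ e ∈ edgesG (2 ^ s) M sp I, EOk (vertsG (2 ^ s) M I) e :=
    allV_ok Z hq I hs.lt hl
  have hv : 3 * (2 ^ s) ^ M ≤ vertsG (2 ^ s) M I := by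
    rw [vertsG, nV]
    have : 3 * (2 ^ s) ^ M * 1 ≤ 3 * (2 ^ s) ^ M * lV (2 ^ s) ((2 ^ s) ^ M) I.length :=
      Nat.mul_le_mul_left _ hL
    omega
  have hv2 : 2 ≤ vertsG (2 ^ s) M I := by omega
  have hr : 1 ≤ rG (2 ^ s) M sp I := by
    rw [rG, rN]
    exact Nat.mul_pos (by omega) (by omega)
  have hden : 0 < denG (2 ^ s) M I := by
    rw [denG, denV]
    positivity
  constructor
  · exact isGraph_blowMat hv2 hr
  · rw [numG, numV]
    have h1 : 0 < I.length * ((2 ^ s) ^ M) ^ 8 := Nat.mul_pos hl (Nat.pow_pos hQ)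
    omega
  · exact hden
  · exact hr
  · rw [graphG, blowMat_length]
    calc (2 ^ s) ^ M ≤ vertsG (2 ^ s) M I := by omega
      _ = vertsG (2 ^ s) M I * 1 := (mul_one _).symm
      _ ≤ _ := Nat.mul_le_mul_left _ hr
  · intro hV
    obtain ⟨S, h1, h2, h3⟩ := weighted_yesV Z hq I hs hl φ θ hθ hV
    have h4 := phi_blow_le hv2 hok S h1 h2 (numG (2 ^ s) M I) (denG (2 ^ s) M I) hden h3
    push_cast
    exact h4
  · intro hV
    have h3 := fun S => weighted_noV (P := findP (2 ^ s)) Z hq I hs.lt hl hI S hV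
    have h5 : 0 < denG (2 ^ s) M I * (4000 * (2 ^ s) ^ 2) := Nat.mul_pos hden (by positivity)
    have h4 := phi_blow_ge hv2 hok ((4000 * (2 ^ s) ^ 2 + 1) * numG (2 ^ s) M I)
      (denG (2 ^ s) M I * (4000 * (2 ^ s) ^ 2)) h5 h3
    push_cast
    push_cast at h4
    exact h4

theorem gap_arithV (n d q r : ℕ) (hn : 0 < n) (hd : 0 < d) (hq : 0 < q) (hr : 0 < r) (x : ℝ)
    (hx : x < 1 + 1 / (4000 * (q : ℝ) ^ 2)) :
    x * ((n : ℝ) / ((d * r ^ 2 : ℕ) : ℝ)) <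
      (((4000 * q ^ 2 + 1) * n : ℕ) : ℝ) / ((d * (4000 * q ^ 2) * r ^ 2 : ℕ) : ℝ) := by
  have hn0 : (0 : ℝ) < n := by exact_mod_cast hn
  have hd0 : (0 : ℝ) < d := by exact_mod_cast hd
  have hq0 : (0 : ℝ) < q := by exact_mod_cast hq
  have hr0 : (0 : ℝ) < r := by exact_mod_cast hr
  have h6 : (((4000 * q ^ 2 + 1) * n : ℕ) : ℝ) / ((d * (4000 * q ^ 2) * r ^ 2 : ℕ) : ℝ) =
      (1 + 1 / (4000 * (q : ℝ) ^ 2)) * ((n : ℝ) / ((d * r ^ 2 : ℕ) : ℝ)) := by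
    push_cast
    field_simp
  rw [h6]
  refine mul_lt_mul_of_pos_right hx ?_
  push_cast
  positivity

end

/-! ### The first choice of the parameters -/

section

variable (T k0 : ℕ) (I : List Eqn)

theorem sysA : Sys (qI T k0 I) (MA T k0 I) (3 * I.length) (spA T k0 I) := by
  have h := exists_space' (sOf T (kI k0 I)) (mOf T (kI k0 I) + 1) (one_le_sOf _ _)
  refine sysN_ok (four_le_q _ _) (H_le_q _ _) (hn_kI T k0 I) (deg_le_q _ _) ?_
  obtain ⟨K, i1, i2, i3, Z, -⟩ := h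
  exact ⟨K, i1, i2, i3, ⟨Z⟩⟩

theorem gapA (hl : 1 ≤ I.length) (hI : Dist I) :
    Gap (qI T k0 I) (MA T k0 I) (spA T k0 I) I :=
  gapG (four_le_q _ _) (sysA T k0 I) hl hI

theorem log_geA (hl : 1 ≤ I.length) (hI : Dist I) : (kI k0 I : ℝ) * Real.log 2 ≤
    Real.log ((graphG (qI T k0 I) (MA T k0 I) (spA T k0 I) I).length : ℝ) := by
  have h1 : 2 ^ kI k0 I ≤ (graphG (qI T k0 I) (MA T k0 I) (spA T k0 I) I).length :=
    le_trans (two_pow_k_le T k0 I) (gapA T k0 I hl hI).length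
  rw [← Real.log_pow]
  refine Real.log_le_log (by positivity) ?_
  exact_mod_cast h1

end

/-- The size of the field, exponent two. -/
theorem q_small_two (T : ℕ) (hT : 1 ≤ T) (ε : ℝ) (hε : 2 / T < ε) (C : ℝ) (hC : 0 < C) :
    ∃ k0 : ℕ, ∀ k ≥ k0, C * ((2 : ℝ) ^ sOf T k) ^ 2 ≤ (k * Real.log 2) ^ (2 + ε) := by
  have hT0 : (0 : ℝ) < T := by exact_mod_cast hT
  have hε' : 3 / (T : ℝ) < 3 / 2 * ε := by
    have : 3 / (T : ℝ) = 3 / 2 * (2 / T) := by ring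
    rw [this]
    linarith
  obtain ⟨k0, hk0⟩ := q_small T hT (3 / 2 * ε) hε' (C ^ (3 / 2 : ℝ))
  refine ⟨k0, fun k hk => ?_⟩
  have h1 := hk0 k hk
  have hy : (0 : ℝ) ≤ k * Real.log 2 :=
    mul_nonneg (Nat.cast_nonneg _) (Real.log_nonneg (by norm_num))
  have hC0 : 0 ≤ C ^ (3 / 2 : ℝ) := Real.rpow_nonneg hC.le _
  have hq0 : (0 : ℝ) ≤ (2 : ℝ) ^ sOf T k := by positivity
  have h2 := Real.rpow_le_rpow (mul_nonneg hC0 (pow_nonneg hq0 3)) h1
    (show (0 : ℝ) ≤ 2 / 3 by norm_num)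
  rw [Real.mul_rpow hC0 (pow_nonneg hq0 3), ← Real.rpow_mul hC.le, ← Real.rpow_mul hy] at h2
  have e1 : (3 / 2 : ℝ) * (2 / 3) = 1 := by norm_num
  have e2 : (3 + 3 / 2 * ε) * (2 / 3) = 2 + ε := by ring
  have e3 : (((2 : ℝ) ^ sOf T k) ^ 3) ^ (2 / 3 : ℝ) = ((2 : ℝ) ^ sOf T k) ^ 2 := by
    rw [← Real.rpow_natCast, ← Real.rpow_mul hq0, ← Real.rpow_natCast]
    norm_num
  rw [e1, e2, e3, Real.rpow_one] at h2
  exact h2

/-- **The gap, polynomial size.** -/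
theorem gapA_param (ε : ℝ) (hε : 0 < ε) : ∃ T k0 : ℕ, 1 ≤ T ∧ ∀ I : List Eqn, I ≠ [] → Dist I →
    1 + 1 / Real.log ((graphG (qI T k0 I) (MA T k0 I) (spA T k0 I) I).length : ℝ) ^ (2 + ε) <
      1 + 1 / (4000 * (qI T k0 I : ℝ) ^ 2) := by
  obtain ⟨T, hT⟩ := exists_nat_gt (2 / ε)
  have hT0 : (0 : ℝ) < T := lt_trans (by positivity) hT
  have hT1 : 1 ≤ T := by
    have : 0 < T := by exact_mod_cast hT0
    omega
  have hε' : 2 / (T : ℝ) < ε := by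
    rw [div_lt_iff₀ hT0]
    rw [div_lt_iff₀ hε] at hT
    linarith
  obtain ⟨k0, hk0⟩ := q_small_two T hT1 ε hε' 4001 (by norm_num)
  refine ⟨T, k0, hT1, fun I hI hD => ?_⟩
  have hl : 1 ≤ I.length := List.length_pos_iff.2 hI
  have hq : 0 < qI T k0 I := by rw [qI]; exact Nat.pow_pos (by norm_num)
  have h1 := hk0 (kI k0 I) (by rw [kI, kOf]; omega)
  have h2 := log_geA T k0 I hl hD
  have hk : 0 ≤ (kI k0 I : ℝ) * Real.log 2 :=
    mul_nonneg (Nat.cast_nonneg _) (Real.log_nonneg (by norm_num))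
  have h3 := Real.rpow_le_rpow hk h2 (show 0 ≤ 2 + ε by linarith)
  have e : (qI T k0 I : ℝ) = (2 : ℝ) ^ sOf T (kI k0 I) := by
    rw [qI, Nat.cast_pow, Nat.cast_ofNat]
  have hq0 : (0 : ℝ) < qI T k0 I := by exact_mod_cast hq
  rw [← e] at h1
  have hq2 : (0 : ℝ) < (qI T k0 I : ℝ) ^ 2 := pow_pos hq0 2
  have h4 : 1 / Real.log ((graphG (qI T k0 I) (MA T k0 I) (spA T k0 I) I).length : ℝ) ^ (2 + ε) <
      1 / (4000 * (qI T k0 I : ℝ) ^ 2) := by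
    refine one_div_lt_one_div_of_lt (by linarith) ?_
    linarith
  linarith

end Vale.Agent.P318.NPV
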