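import Vale.Agent.P318.NPV.Alg
import Vale.Agent.P318.NPH.Viol

/-!
Rounding of a multilinear function; lower bound for the number of violated tests.
-/

set_option linter.unusedSectionVars false

namespace Vale.Agent.P318.NPV

open Finset Vale.Agent.P333 Vale.Agent.P318.NPH

/-- A function which is affine in every coordinate can be rounded. -/
theorem exists_round (f : (ℕ → ℝ) → ℝ)
    (hf : ∀ (x : ℕ → ℝ) (i : ℕ), ∃ c d : ℝ, ∀ t : ℝ, f (Function.update x i t) = c + d * t)
    (x : ℕ → ℝ) (hx : ∀ i, |x i| ≤ 1) (s : Finset ℕ) :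
    ∃ y : ℕ → ℝ, (∀ i ∈ s, y i = 1 ∨ y i = -1) ∧ (∀ i, |y i| ≤ 1) ∧ f y ≤ f x := by
  induction s using Finset.induction_on with
  | empty => exact ⟨x, by simp, hx, le_rfl⟩
  | insert a s ha ih =>
    obtain ⟨y, h1, h2, h3⟩ := ih
    obtain ⟨c, d, hcd⟩ := hf y a
    have h4 : f y = c + d * y a := by rw [← hcd, Function.update_eq_self]
    have h5 := abs_le.1 (h2 a)
    obtain ⟨t, ht, htd⟩ : ∃ t : ℝ, (t = 1 ∨ t = -1) ∧ d * t ≤ d * y a := by
      rcases le_total 0 d with hd | hd
      · exact ⟨-1, Or.inr rfl, mul_le_mul_of_nonneg_left h5.1 hd⟩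
      · exact ⟨1, Or.inl rfl, mul_le_mul_of_nonpos_left h5.2 hd⟩
    refine ⟨Function.update y a t, ?_, ?_, ?_⟩
    · intro i hi
      by_cases hia : i = a
      · subst hia
        rw [Function.update_self]
        exact ht
      · rw [Function.update_of_ne hia]
        exact h1 i ((mem_insert.1 hi).resolve_left hia)
    · intro i
      by_cases hia : i = a
      · subst hia
        rw [Function.update_self]
        rcases ht with h | h <;> rw [h] <;> norm_num
      · rw [Function.update_of_ne hia]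
        exact h2 i
    · rw [hcd]
      linarith

/-- The term of an equation. -/
noncomputable def term (s : ℝ) (a b c o : ℕ) (x : ℕ → ℝ) : ℝ := (1 - s * (x a * x b * x c * x o)) / 2

theorem term_affine (s : ℝ) {a b c o : ℕ} (hab : a ≠ b) (hac : a ≠ c) (hbc : b ≠ c) (hao : a ≠ o)
    (hbo : b ≠ o) (hco : c ≠ o) (x : ℕ → ℝ) (i : ℕ) :
    ∃ k d : ℝ, ∀ t : ℝ, term s a b c o (Function.update x i t) = k + d * t := by
  by_cases h1 : i = a
  · subst h1
    refine ⟨1 / 2, - s * (x b * x c * x o) / 2, fun t => ?_⟩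
    rw [term, Function.update_self, Function.update_of_ne hab.symm, Function.update_of_ne hac.symm,
      Function.update_of_ne hao.symm]
    ring
  by_cases h2 : i = b
  · subst h2
    refine ⟨1 / 2, - s * (x a * x c * x o) / 2, fun t => ?_⟩
    rw [term, Function.update_self, Function.update_of_ne hab, Function.update_of_ne hbc.symm,
      Function.update_of_ne hbo.symm]
    ring
  by_cases h3 : i = c
  · subst h3
    refine ⟨1 / 2, - s * (x a * x b * x o) / 2, fun t => ?_⟩
    rw [term, Function.update_self, Function.update_of_ne hac, Function.update_of_ne hbc,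
      Function.update_of_ne hco.symm]
    ring
  by_cases h4 : i = o
  · subst h4
    refine ⟨1 / 2, - s * (x a * x b * x c) / 2, fun t => ?_⟩
    rw [term, Function.update_self, Function.update_of_ne hao, Function.update_of_ne hbo,
      Function.update_of_ne hco]
    ring
  · refine ⟨term s a b c o x, 0, fun t => ?_⟩
    rw [term, term, Function.update_of_ne (Ne.symm h1), Function.update_of_ne (Ne.symm h2),
      Function.update_of_ne (Ne.symm h3), Function.update_of_ne (Ne.symm h4)]
    ring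

theorem sum_affine {β : Type*} (l : List β) (F : β → (ℕ → ℝ) → ℝ)
    (h : ∀ e ∈ l, ∀ (x : ℕ → ℝ) (i : ℕ), ∃ c d : ℝ, ∀ t : ℝ, F e (Function.update x i t) = c + d * t)
    (x : ℕ → ℝ) (i : ℕ) :
    ∃ c d : ℝ, ∀ t : ℝ, (l.map fun e => F e (Function.update x i t)).sum = c + d * t := by
  induction l with
  | nil => exact ⟨0, 0, fun t => by simp⟩
  | cons a l ih =>
    obtain ⟨c, d, h1⟩ := ih fun e he => h e (List.mem_cons_of_mem _ he)
    obtain ⟨c', d', h2⟩ := h a List.mem_cons_self x i
    refine ⟨c' + c, d' + d, fun t => ?_⟩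
    rw [List.map_cons, List.sum_cons, h1, h2]
    ring

/-- The variables of the equations are distinct. -/
def Dist (I : List Eqn) : Prop := ∀ e ∈ I, e.1.1 ≠ e.1.2.1 ∧ e.1.1 ≠ e.1.2.2 ∧ e.1.2.1 ≠ e.1.2.2

theorem vIdx_lt {I : List Eqn} {v : ℕ} (hv : v ∈ vars I) : vIdx I v < 3 * I.length := by
  have := (takeWhile_getD (vars I) v hv).1
  rwa [vars_length] at this

theorem vIdx_inj {I : List Eqn} {v w : ℕ} (hv : v ∈ vars I) (hw : w ∈ vars I)
    (h : vIdx I v = vIdx I w) : v = w := by
  have h1 := (takeWhile_getD (vars I) v hv).2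
  have h2 := (takeWhile_getD (vars I) w hw).2
  rw [← h1, ← h2]
  unfold vIdx at h
  rw [h]

theorem mem_vars {I : List Eqn} {e : Eqn} (he : e ∈ I) :
    e.1.1 ∈ vars I ∧ e.1.2.1 ∈ vars I ∧ e.1.2.2 ∈ vars I := by
  refine ⟨?_, ?_, ?_⟩ <;>
  · rw [vars, List.mem_flatMap]
    exact ⟨e, he, by simp⟩

/-- The sign of the right hand side. -/
def sR (β : Bool) : ℝ := if β = true then -1 else 1

/-- The objective. -/
noncomputable def obj (I : List Eqn) (x : ℕ → ℝ) : ℝ :=
  (I.map fun e => term (sR e.2) (vIdx I e.1.1) (vIdx I e.1.2.1) (vIdx I e.1.2.2) (3 * I.length) x).sum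

theorem term_sign {A B C O : ℝ} (hA : A = 1 ∨ A = -1) (hB : B = 1 ∨ B = -1)
    (hC : C = 1 ∨ C = -1) (hO : O = 1 ∨ O = -1) (β : Bool) :
    (1 - sR β * (A * B * C * O)) / 2 =
      if ((xor (decide (A * O = -1)) (xor (decide (B * O = -1)) (decide (C * O = -1)))) != β) = true
        then 1 else 0 := by
  rcases hA with rfl | rfl <;> rcases hB with rfl | rfl <;> rcases hC with rfl | rfl <;>
    rcases hO with rfl | rfl <;> cases β <;> norm_num [sR]

theorem obj_ge (I : List Eqn) (hI : Dist I) (x : ℕ → ℝ) (hx : ∀ i, |x i| ≤ 1) :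
    (minViolated I : ℝ) ≤ obj I x := by
  obtain ⟨y, h1, -, h3⟩ := exists_round (obj I) (fun x i => by
    unfold obj
    refine sum_affine I (fun e => term (sR e.2) (vIdx I e.1.1) (vIdx I e.1.2.1) (vIdx I e.1.2.2)
      (3 * I.length)) (fun e he => ?_) x i
    obtain ⟨m1, m2, m3⟩ := mem_vars he
    obtain ⟨d1, d2, d3⟩ := hI e he
    exact term_affine _ (fun h => d1 (vIdx_inj m1 m2 h)) (fun h => d2 (vIdx_inj m1 m3 h))
      (fun h => d3 (vIdx_inj m2 m3 h)) (vIdx_lt m1).ne (vIdx_lt m2).ne (vIdx_lt m3).ne) x hx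
    (range (3 * I.length + 1))
  refine le_trans ?_ h3
  set a : ℕ → Bool := fun v => decide (y (vIdx I v) * y (3 * I.length) = -1) with ha
  have h4 : minViolated I ≤ violated a I := Nat.sInf_le ⟨a, rfl⟩
  have h5 : (minViolated I : ℝ) ≤ violated a I := by exact_mod_cast h4
  refine h5.trans (le_of_eq ?_)
  rw [violated, countP_eq_sum, obj]
  push_cast
  rw [List.map_map]
  congr 1
  refine List.map_congr_left fun e he => ?_
  obtain ⟨m1, m2, m3⟩ := mem_vars he
  have hr : ∀ {n : ℕ}, n < 3 * I.length → n ∈ range (3 * I.length + 1) := fun h =>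
    mem_range.2 (by omega)
  rw [term, term_sign (h1 _ (hr (vIdx_lt m1))) (h1 _ (hr (vIdx_lt m2))) (h1 _ (hr (vIdx_lt m3)))
    (h1 _ (mem_range.2 (Nat.lt_succ_self _)))]
  rw [Function.comp_apply, Nat.cast_ite, Nat.cast_one, Nat.cast_zero]

end Vale.Agent.P318.NPV
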