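import Vale.Agent.P318.NPV.TestSum
import Vale.Agent.P318.NPV.Round

/-!
Cuts of the graph.
-/

set_option linter.unusedSectionVars false

namespace Vale.Agent.P318.NPV

open Finset Vale.Agent.P333 Vale.Agent.P318.NPH

theorem posN_length (q P M : ℕ) (π : List ℕ) (t : ℕ) : (posN q P M π t).length = w2N q := by
  rw [posN, List.length_flatMap, sum_map_range]
  simp [w2N]

section

variable {q P M : ℕ} {K : Type} [Field K] [Fintype K] [DecidableEq K] (Z : Space q P M K)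

/-- The points of an equation. -/
def eqX {sp : ℕ → ℕ} {I : List Eqn} (hlt : ∀ v ≤ 3 * I.length, sp v < q ^ M) (e : Eqn) :
    Fin 4 → (Fin M → K) :=
  ![Z.idx.symm ⟨sp (vIdx I e.1.1), hlt _ (vIdx_le _ _)⟩,
    Z.idx.symm ⟨sp (vIdx I e.1.2.1), hlt _ (vIdx_le _ _)⟩,
    Z.idx.symm ⟨sp (vIdx I e.1.2.2), hlt _ (vIdx_le _ _)⟩,
    Z.idx.symm ⟨sp (3 * I.length), hlt _ le_rfl⟩]

theorem eqX_idx {sp : ℕ → ℕ} {I : List Eqn} (hlt : ∀ v ≤ 3 * I.length, sp v < q ^ M) (e : Eqn)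
    (j : Fin 4) : (eqP sp I e).getD j 0 = Z.idx (eqX Z hlt e j) := by
  fin_cases j <;> simp [eqP, eqX]

variable {sp : ℕ → ℕ} (h4 : 4 ≤ q) (I : List Eqn) (hlt : ∀ v ≤ 3 * I.length, sp v < q ^ M)
  (S : ℕ → Bool)

/-- Number of violated tests of the equation number `i`. -/
def eBad (i : ℕ) : ℕ :=
  badT K (tau (Z.side S)) (eqX Z hlt (I.getD i dEqn)) (((I.getD i dEqn).2.toNat : ℕ) : ZMod 2)

/-- Total number of violated tests. -/
def violV : ℕ := ∑ i ∈ range I.length, eBad Z I hlt S i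

/-- The value of a cut which separates the hubs (times two). -/
def valV : ℕ :=
  2 * (aV q (q ^ M) I.length * q ^ M) +
    bV q (q ^ M) I.length * (cnt (Z.side S) * cnt (fun x => !Z.side S x)) +
    constV q (q ^ M) I + violV Z I hlt S

include h4 in
/-- The value, from the gadgets. -/
theorem valV_eq :
    valV Z I hlt S = 2 * (aV q (q ^ M) I.length * q ^ M +
      ∑ i ∈ range I.length, ∑ t ∈ range ((q ^ M) ^ 8), aVal (w2N q)
        (I.getD i dEqn).2.toNat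
        ((posN q P M (eqP sp I (I.getD i dEqn)) t).countP S)) := by
  rw [mul_add, mul_sum]
  have h1 : ∀ i ∈ range I.length, 2 * ∑ t ∈ range ((q ^ M) ^ 8), aVal (w2N q)
      (I.getD i dEqn).2.toNat ((posN q P M (eqP sp I (I.getD i dEqn)) t).countP S) =
      w2N q * (w2N q - 1) * (q ^ M) ^ 6 * (cnt (Z.side S) * cnt (fun x => !Z.side S x)) +
      (q ^ M) ^ 8 * dN (w2N q) (I.getD i dEqn).2.toNat + eBad Z I hlt S i := by
    intro i _
    exact test_sum Z h4 S _ _ (eqX_idx Z hlt _) _ (Bool.toNat_le _)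
  rw [sum_congr rfl h1, sum_add_distrib, sum_add_distrib, sum_const, card_range, smul_eq_mul,
    ← mul_sum, sum_getD I dEqn (fun e => dN (w2N q) e.2.toNat), valV, violV, constV, bV]
  ring

include h4 in
theorem sep_geV (h1 : S (q ^ M) = true) (h2 : S (2 * q ^ M) = false) :
    valV Z I hlt S ≤ 2 * cutE (allV q P M sp I) S := by
  rw [valV_eq Z h4 I hlt S]
  refine Nat.mul_le_mul_left _ ?_
  rw [allV, cutE_append, cutE_append, hub_sep _ _ _ h1 h2]
  refine add_le_add (Nat.le_add_left _ _) ?_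
  rw [testE, cutE_range]
  refine sum_le_sum fun i _ => ?_
  rw [cutE_range]
  refine sum_le_sum fun t _ => ?_
  have := gadget_ge (q ^ M) (2 * q ^ M) 1 (I.getD i dEqn).2.toNat
    (posN q P M (eqP sp I (I.getD i dEqn)) t)
    (3 * q ^ M * lV q (q ^ M) I.length + (i * (q ^ M) ^ 8 + t) * (w2N q + 1)) S h1 h2
  rw [posN_length, one_mul] at this
  exact this

/-- The auxiliary vertices are on the better side. -/
def GoodV (q P M : ℕ) (sp : ℕ → ℕ) (I : List Eqn) (S : ℕ → Bool) : Prop :=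
  ∀ i < I.length, ∀ t < (q ^ M) ^ 8, ∀ κ ≤ w2N q,
    S (3 * q ^ M * lV q (q ^ M) I.length + (i * (q ^ M) ^ 8 + t) * (w2N q + 1) + κ) =
      decide (κ ≤ (posN q P M (eqP sp I (I.getD i dEqn)) t).countP S)

include h4 in
theorem sep_eqV (h1 : S (q ^ M) = true) (h2 : S (2 * q ^ M) = false)
    (hU : Unif (q ^ M) (lV q (q ^ M) I.length) S) (hG : GoodV q P M sp I S) :
    2 * cutE (allV q P M sp I) S = valV Z I hlt S := by
  rw [valV_eq Z h4 I hlt S]
  congr 1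
  rw [allV, cutE_append, cutE_append, hub_sep _ _ _ h1 h2, hU.cluster, zero_add]
  congr 1
  rw [testE, cutE_range]
  refine sum_congr rfl fun i hi => ?_
  rw [mem_range] at hi
  rw [cutE_range]
  refine sum_congr rfl fun t ht => ?_
  rw [mem_range] at ht
  have := gadget_eq (q ^ M) (2 * q ^ M) 1 (I.getD i dEqn).2.toNat
    (posN q P M (eqP sp I (I.getD i dEqn)) t)
    (3 * q ^ M * lV q (q ^ M) I.length + (i * (q ^ M) ^ 8 + t) * (w2N q + 1)) S h1 h2
    (by rw [posN_length]; exact hG i hi t ht)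
  rw [posN_length, one_mul] at this
  exact this

/-- Cuts which do not separate the hubs. -/
theorem same_geV (h4 : 4 ≤ q) (h1 : S (q ^ M) = false) (h2 : S (2 * q ^ M) = false) :
    2 * aV q (q ^ M) I.length * cntN S 0 (q ^ M) +
      cntN S (3 * q ^ M * lV q (q ^ M) I.length) (stV q (q ^ M) I.length) ≤
      cutE (allV q P M sp I) S := by
  rw [allV, cutE_append, cutE_append, hub_same _ _ _ h1 h2, stV]
  suffices hs : cntN S (3 * q ^ M * lV q (q ^ M) I.length)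
      (I.length * (q ^ M) ^ 8 * (w2N q + 1)) ≤ cutE (testE q P M sp
        (3 * q ^ M * lV q (q ^ M) I.length) I) S by
    omega
  rw [testE, cutE_range, show I.length * (q ^ M) ^ 8 * (w2N q + 1) =
    I.length * ((q ^ M) ^ 8 * (w2N q + 1)) by ring, cntN_mul]
  refine sum_le_sum fun i _ => ?_
  rw [cutE_range, cntN_mul]
  refine sum_le_sum fun t _ => ?_
  have := gadget_same (q ^ M) (2 * q ^ M) 1 (I.getD i dEqn).2.toNat le_rfl
    (posN q P M (eqP sp I (I.getD i dEqn)) t)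
    (by rw [posN_length, w2N]; omega)
    (3 * q ^ M * lV q (q ^ M) I.length + (i * (q ^ M) ^ 8 + t) * (w2N q + 1)) S h1 h2
  rw [posN_length, card_filter] at this
  refine le_trans (le_of_eq ?_) this
  rw [cntN]
  refine sum_congr rfl fun κ _ => ?_
  congr 3
  ring

/-! ### Soundness: the number of violated tests -/

/-- The normalised biases. -/
noncomputable def xB (Z : Space q P M K) {sp : ℕ → ℕ} {I : List Eqn}
    (hlt : ∀ v ≤ 3 * I.length, sp v < q ^ M) (S : ℕ → Bool) (v : ℕ) : ℝ :=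
  if h : v ≤ 3 * I.length then
    (bias K (tau (Z.side S)) (Z.idx.symm ⟨sp v, hlt v h⟩) : ℝ) / ((q ^ M : ℕ) : ℝ) ^ 2
  else 0

theorem abs_xB (v : ℕ) : |xB Z hlt S v| ≤ 1 := by
  rw [xB]
  split_ifs with h
  · have hQ : (0 : ℝ) < ((q ^ M : ℕ) : ℝ) := by
      have : 0 < q ^ M := lt_of_le_of_lt (Nat.zero_le _) (hlt v h)
      exact_mod_cast this
    rw [abs_div, abs_of_pos (pow_pos hQ 2), div_le_one (pow_pos hQ 2)]
    have h1 := bias_abs (K := K) (tau (Z.side S)) (Z.idx.symm ⟨sp v, hlt v h⟩)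
    rw [Z.card_X] at h1
    exact_mod_cast h1
  · simp

theorem xB_mul (v : ℕ) (h : v ≤ 3 * I.length) : ((q ^ M : ℕ) : ℝ) ^ 2 * xB Z hlt S v =
    bias K (tau (Z.side S)) (Z.idx.symm ⟨sp v, hlt v h⟩) := by
  have hQ : (0 : ℝ) < ((q ^ M : ℕ) : ℝ) := by
    have : 0 < q ^ M := lt_of_le_of_lt (Nat.zero_le _) (hlt v h)
    exact_mod_cast this
  rw [xB, dif_pos h, mul_div_cancel₀]
  exact (pow_pos hQ 2).ne'

theorem sR_sg (β : Bool) : ((sg ((β.toNat : ℕ) : ZMod 2) : ℤ) : ℝ) = sR β := by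
  cases β
  · simp [sg, sR]
  · have : sg (((true.toNat : ℕ) : ZMod 2)) = -1 := by decide
    rw [this]; simp [sR]

theorem eBad_eq (e : Eqn) :
    ((badT K (tau (Z.side S)) (eqX Z hlt e) ((e.2.toNat : ℕ) : ZMod 2) : ℕ) : ℝ) =
      ((q ^ M : ℕ) : ℝ) ^ 8 * term (sR e.2) (vIdx I e.1.1) (vIdx I e.1.2.1) (vIdx I e.1.2.2)
        (3 * I.length) (xB Z hlt S) := by
  have h1 := two_badT (K := K) (tau (Z.side S)) (eqX Z hlt e) ((e.2.toNat : ℕ) : ZMod 2)
  rw [Z.card_X, Fintype.card_fin, Fin.prod_univ_four] at h1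
  have h2 : (2 : ℝ) * ((badT K (tau (Z.side S)) (eqX Z hlt e) ((e.2.toNat : ℕ) : ZMod 2) : ℕ) : ℝ) =
      (((q ^ M : ℕ) : ℝ) ^ 2) ^ 4 - sR e.2 *
      ((bias K (tau (Z.side S)) (eqX Z hlt e 0) : ℝ) * (bias K (tau (Z.side S)) (eqX Z hlt e 1) : ℝ) *
        (bias K (tau (Z.side S)) (eqX Z hlt e 2) : ℝ) *
        (bias K (tau (Z.side S)) (eqX Z hlt e 3) : ℝ)) := by
    rw [← sR_sg]
    exact_mod_cast h1
  have e0 : eqX Z hlt e 0 = Z.idx.symm ⟨sp (vIdx I e.1.1), hlt _ (vIdx_le _ _)⟩ := rfl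
  have e1 : eqX Z hlt e 1 = Z.idx.symm ⟨sp (vIdx I e.1.2.1), hlt _ (vIdx_le _ _)⟩ := rfl
  have e2 : eqX Z hlt e 2 = Z.idx.symm ⟨sp (vIdx I e.1.2.2), hlt _ (vIdx_le _ _)⟩ := rfl
  have e3 : eqX Z hlt e 3 = Z.idx.symm ⟨sp (3 * I.length), hlt _ le_rfl⟩ := rfl
  rw [e0, e1, e2, e3, ← xB_mul Z I hlt S _ (vIdx_le _ _), ← xB_mul Z I hlt S _ (vIdx_le _ _),
    ← xB_mul Z I hlt S _ (vIdx_le _ _), ← xB_mul Z I hlt S _ le_rfl] at h2
  rw [term]
  linear_combination h2 / 2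

theorem violV_ge (hI : Dist I) : (q ^ M) ^ 8 * minViolated I ≤ violV Z I hlt S := by
  have h1 := obj_ge I hI (xB Z hlt S) (abs_xB Z I hlt S)
  have h2 : ((violV Z I hlt S : ℕ) : ℝ) = ((q ^ M : ℕ) : ℝ) ^ 8 * obj I (xB Z hlt S) := by
    have h3 : violV Z I hlt S = (I.map fun e => badT K (tau (Z.side S)) (eqX Z hlt e)
        ((e.2.toNat : ℕ) : ZMod 2)).sum := by
      rw [violV, ← sum_getD I dEqn]
      rfl
    rw [h3, obj, ← List.sum_map_mul_left, Nat.cast_list_sum, List.map_map]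
    congr 1
    refine List.map_congr_left fun e _ => ?_
    rw [Function.comp_apply]
    exact eBad_eq Z I hlt S e
  have h4 : (((q ^ M) ^ 8 * minViolated I : ℕ) : ℝ) ≤ ((violV Z I hlt S : ℕ) : ℝ) := by
    rw [h2]
    push_cast
    have : (0 : ℝ) ≤ ((q : ℝ) ^ M) ^ 8 := by positivity
    exact mul_le_mul_of_nonneg_left h1 this
  exact_mod_cast h4

end

end Vale.Agent.P318.NPV
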