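import Vale.Agent.P318.NPH.Defs

/-!
The second version of the reduction, on natural numbers and lists: only tests of the equations,
each with four independent curves.
-/

namespace Vale.Agent.P318.NPV

open Vale.Agent.P333 Vale.Agent.P318.NPH

/-! ### Tests -/

/-- Positions of the test number `t < Q ^ 8`, `Q = q ^ M`, of an equation with points `π`. -/
def posN (q P M : ℕ) (π : List ℕ) (t : ℕ) : List ℕ :=
  (List.range 4).flatMap fun j => (List.range (q - 1)).map fun u =>
    ptN q P M (π.getD j 0) (t / (q ^ M) ^ (2 * j) % q ^ M) (t / (q ^ M) ^ (2 * j + 1) % q ^ M)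
      (u + 1)

/-- The points of an equation; `sp v` is the point of the variable number `v`. -/
def eqP (sp : ℕ → ℕ) (I : List Eqn) (e : Eqn) : List ℕ :=
  [sp (vIdx I e.1.1), sp (vIdx I e.1.2.1), sp (vIdx I e.1.2.2), sp (3 * I.length)]

/-! ### The numbers of the construction, as functions of `q`, `Q` and `l` (the number of
equations) -/

/-- The coefficient of `n₁ n₀`. -/
def bV (q Q l : ℕ) : ℕ := l * Q ^ 6 * (w2N q * (w2N q - 1))

/-- The capacity of the edges to the hubs. -/
def aV (q Q l : ℕ) : ℕ := 8 * bV q Q l * Q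

/-- Number of auxiliary vertices. -/
def stV (q Q l : ℕ) : ℕ := l * Q ^ 8 * (w2N q + 1)

/-- Number of copies of each unit. -/
def lV (q Q l : ℕ) : ℕ := 10 ^ 4 * q ^ 2 * stV q Q l * aV q Q l

/-- Capacity of the heavy edges. -/
def bigV (q Q l : ℕ) : ℕ := 4 * aV q Q l * Q

/-- Number of vertices. -/
def nV (q Q l : ℕ) : ℕ := 3 * Q * lV q Q l + stV q Q l

/-! ### The graph -/

/-- The gadgets of the tests of the equations. -/
def testE (q P M : ℕ) (sp : ℕ → ℕ) (n1 : ℕ) (I : List Eqn) : List (ℕ × ℕ × ℕ) :=
  (List.range I.length).flatMap fun i => (List.range ((q ^ M) ^ 8)).flatMap fun t =>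
    gadget (q ^ M) (2 * q ^ M) 1 (I.getD i ((0, 0, 0), false)).2.toNat
      (posN q P M (eqP sp I (I.getD i ((0, 0, 0), false))) t)
      (n1 + (i * (q ^ M) ^ 8 + t) * (w2N q + 1))

/-- All edges, for given parameters. -/
def allV (q P M : ℕ) (sp : ℕ → ℕ) (I : List Eqn) : List (ℕ × ℕ × ℕ) :=
  clusterE (q ^ M) (lV q (q ^ M) I.length) (bigV q (q ^ M) I.length) ++
    hubE (q ^ M) (aV q (q ^ M) I.length) ++
    testE q P M sp (3 * q ^ M * lV q (q ^ M) I.length) I

/-- Sum of the constants of the gadgets. -/
def constV (q Q : ℕ) (I : List Eqn) : ℕ := Q ^ 8 * (I.map fun e => dN (w2N q) e.2.toNat).sum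

/-- Numerator of the threshold. -/
def numV (q Q : ℕ) (I : List Eqn) : ℕ :=
  16 * aV q Q I.length * Q + 2 * bV q Q I.length * Q ^ 2 + 8 * constV q Q I + I.length * Q ^ 8

/-- Denominator of the threshold. -/
def denV (q Q l : ℕ) : ℕ := 36 * Q ^ 2 * lV q Q l ^ 2

/-! ### As functions of `q`, `M`, the point function and the system -/

/-- The edges of the graph. -/
def edgesG (q M : ℕ) (sp : ℕ → ℕ) (I : List Eqn) : List (ℕ × ℕ × ℕ) := allV q (findP q) M sp I

/-- The number of vertices of the graph. -/
def vertsG (q M : ℕ) (I : List Eqn) : ℕ := nV q (q ^ M) I.length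

/-- Numerator of the threshold. -/
def numG (q M : ℕ) (I : List Eqn) : ℕ := numV q (q ^ M) I

/-- Denominator of the threshold. -/
def denG (q M : ℕ) (I : List Eqn) : ℕ := denV q (q ^ M) I.length

/-- The number of copies in the unweighted graph. -/
def rG (q M : ℕ) (sp : ℕ → ℕ) (I : List Eqn) : ℕ := rN (vertsG q M I) (edgesG q M sp I)

/-- The unweighted graph. -/
def graphG (q M : ℕ) (sp : ℕ → ℕ) (I : List Eqn) : List (List Bool) :=
  blowMat (vertsG q M I) (rG q M sp I) (edgesG q M sp I)

/-! ### First choice of the parameters: polynomial size -/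

/-- Number of coordinates. -/
def MA (T k0 : ℕ) (I : List Eqn) : ℕ := mOf T (kI k0 I) + 1

/-- The point of the variable number `v`. -/
def spA (T k0 : ℕ) (I : List Eqn) (v : ℕ) : ℕ :=
  sysN (qI T k0 I) (2 ^ rOf T (kI k0 I)) (mOf T (kI k0 I)) v

/-! ### Second choice of the parameters: `q` is constant -/

/-- The point of the number `v`: `d` blocks of `k` coordinates; in the block number `j` only the
coordinate given by the digit number `j` of `v` in base `k` is one. -/
def sysB (q k d v : ℕ) : ℕ := ((List.range d).map fun j => q ^ (k * j + v / k ^ j % k)).sum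

end Vale.Agent.P318.NPV
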