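import Vale.Agent.P318.NPV.Core
import Vale.Agent.P318.NPV.PT
import Vale.Agent.P318.NPH.Final

/-!
NP-hardness of the approximation of Uniform Sparsest Cut, better exponent.
-/

namespace Vale.Agent.P318.NPV

open Finset Vale.Agent.P333 Vale.Agent.Lib.PolyTime Vale.Agent.P318 Vale.Agent.P318.NPH

theorem gapRed_two (ε : ℝ) (hε : 0 < ε) {L : Set (List Bool)} (hL : L ∈ classNP) :
    GapRed (fun N => 1 + 1 / Real.log N ^ (2 + ε)) L := by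
  obtain ⟨T, k0, hT, hpar⟩ := gapA_param ε hε
  obtain ⟨d, Φ, g, hg, hg', hΦ⟩ := Vale.Agent.P333.NP.np_gap hL (ε := 1 / 8) (by norm_num)
  have hPT : PT ∅ (fun r : Raw => Φ r.w) := ⟨g, hg, fun r => hg' r.w⟩
  have hq : PT ∅ (fun r : Raw => qI T k0 (Φ r.w)) := (PT_qI T k0).comp hPT
  have hr : PT ∅ (fun r : Raw => rG (qI T k0 (Φ r.w)) (MA T k0 (Φ r.w)) (spA T k0 (Φ r.w))
    (Φ r.w)) := (PT_rA T k0 hT).comp hPT
  have hn : PT ∅ (fun r : Raw => numG (qI T k0 (Φ r.w)) (MA T k0 (Φ r.w)) (Φ r.w)) :=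
    (PT_numA T k0).comp hPT
  have hd : PT ∅ (fun r : Raw => denG (qI T k0 (Φ r.w)) (MA T k0 (Φ r.w)) (Φ r.w)) :=
    (PT_denA T k0).comp hPT
  have hG : PT ∅ (fun r : Raw => graphG (qI T k0 (Φ r.w)) (MA T k0 (Φ r.w)) (spA T k0 (Φ r.w))
    (Φ r.w)) := (PT_graphA T k0 hT).comp hPT
  refine ⟨fun x => graphG (qI T k0 (Φ x)) (MA T k0 (Φ x)) (spA T k0 (Φ x)) (Φ x),
    fun x => numG (qI T k0 (Φ x)) (MA T k0 (Φ x)) (Φ x),
    fun x => denG (qI T k0 (Φ x)) (MA T k0 (Φ x)) (Φ x) *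
      rG (qI T k0 (Φ x)) (MA T k0 (Φ x)) (spA T k0 (Φ x)) (Φ x) ^ 2,
    fun x => (4000 * qI T k0 (Φ x) ^ 2 + 1) * numG (qI T k0 (Φ x)) (MA T k0 (Φ x)) (Φ x),
    fun x => denG (qI T k0 (Φ x)) (MA T k0 (Φ x)) (Φ x) * (4000 * qI T k0 (Φ x) ^ 2) *
      rG (qI T k0 (Φ x)) (MA T k0 (Φ x)) (spA T k0 (Φ x)) (Φ x) ^ 2,
    polyTime_of_PT graphW_eq hG, polyTime_of_PT (fun _ => rfl) hn,
    polyTime_of_PT (fun _ => rfl) (hd.mul (hr.powConst 2)),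
    polyTime_of_PT (fun _ => rfl) ((((PT.const 4000).mul (hq.powConst 2)).add (PT.const 1)).mul hn),
    polyTime_of_PT (fun _ => rfl) ((hd.mul ((PT.const 4000).mul (hq.powConst 2))).mul
      (hr.powConst 2)), ?_⟩
  intro x
  obtain ⟨h1, hB, h3, h4⟩ := hΦ x
  have hl : 1 ≤ (Φ x).length := List.length_pos_iff.2 h1
  have hD : Dist (Φ x) := hB.1
  have c := gapA T k0 (Φ x) hl hD
  have hq0 : 0 < qI T k0 (Φ x) := by rw [qI]; exact Nat.pow_pos (by norm_num)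
  refine ⟨c.graph, c.num, Nat.mul_pos c.den (Nat.pow_pos c.r),
    Nat.mul_pos (Nat.mul_pos c.den (Nat.mul_pos (by norm_num) (Nat.pow_pos hq0)))
      (Nat.pow_pos c.r), gap_arithV _ _ _ _ c.num c.den hq0 c.r _ (hpar (Φ x) h1 hD),
    fun hx => c.yes ?_, fun hx => c.no ?_⟩
  · have h5 := h3 hx
    have h6 : (8 * minViolated (Φ x) : ℝ) ≤ (Φ x).length := by linarith
    exact_mod_cast h6
  · have h5 := h4 hx
    have h6 : (3 * (Φ x).length : ℝ) ≤ 8 * minViolated (Φ x) := by linarith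
    exact_mod_cast h6

theorem np_eq_p_two (ε : ℝ) (hε : 0 < ε)
    (h : Vale.Agent.P318.HasApprox (fun N => 1 + 1 / Real.log N ^ (2 + ε))) : classNP = classP :=
  gap_imp (factor_nonneg _) (fun _ hL => gapRed_two ε hε hL) h

end Vale.Agent.P318.NPV
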