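import Vale.Agent.P318.NPV.Alg
import Vale.Agent.P318.NPV.Defs
import Vale.Agent.P318.NPH.Graph

/-!
Completeness: extension of assignments of the systematic points by polynomials.
-/

set_option linter.unusedSectionVars false

namespace Vale.Agent.P318.NPV

open Finset Polynomial Vale.Agent.P318.NPH

section

variable {K : Type*} [Field K] [Fintype K] [DecidableEq K] {m : ℕ}

/-- The restrictions of the function to curves are polynomials of small degree. -/
def Low (G : (Fin (m + 1) → K) → K) : Prop :=
  ∀ y h g : Fin (m + 1) → K, ∃ R : K[X], R.natDegree < Fintype.card K - 1 ∧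
    ∀ u, R.eval u = G (cpt y h g u)

/-- The word of a function. -/
def word (φ : K →+ ZMod 2) (G : (Fin (m + 1) → K) → K) (p : Fin (m + 1) → K) : ZMod 2 :=
  φ (G p + p (Fin.last m))

theorem word_pre (h4 : 4 ≤ Fintype.card K) (φ : K →+ ZMod 2) (G : (Fin (m + 1) → K) → K)
    (hG : Low G) (p : Fin (m + 1) → K) (t : (Fin (m + 1) → K) × (Fin (m + 1) → K)) :
    pre K (word φ G) p t = word φ G p := by
  obtain ⟨h, g⟩ := t
  have hsum : ∑ u : K, word φ G (cpt p h g u) = 0 := by
    simp only [word]
    rw [← map_sum, sum_add_distrib]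
    have h1 : ∑ u : K, G (cpt p h g u) = 0 := by
      obtain ⟨R, hR, hR'⟩ := hG p h g
      simp_rw [← hR']
      exact sum_eval_eq_zero _ hR
    have h2 : ∑ u : K, cpt p h g u (Fin.last m) = 0 := by
      have : ∀ u : K, cpt p h g u (Fin.last m) =
          (crv (p (Fin.last m)) (h (Fin.last m)) (g (Fin.last m))).eval u := by
        intro u
        rw [crv_eval]
        simp [cpt]
      simp_rw [this]
      refine sum_eval_eq_zero _ ?_
      have := crv_natDegree (p (Fin.last m)) (h (Fin.last m)) (g (Fin.last m))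
      omega
    rw [h1, h2, add_zero, map_zero]
  rw [sum_all_eq (fun u => word φ G (cpt p h g u))] at hsum
  simp only [cpt_zero] at hsum
  exact (zmod2_eq_of_add hsum).symm

/-- The function does not depend on the last coordinate. -/
def NoLast (G : (Fin (m + 1) → K) → K) : Prop :=
  ∀ p z, G (Function.update p (Fin.last m) z) = G p

theorem word_update (φ : K →+ ZMod 2) (θ : K) (hθ : φ θ = 1) (G : (Fin (m + 1) → K) → K)
    (hG : NoLast G) (p : Fin (m + 1) → K) :
    word φ G (Function.update p (Fin.last m) (p (Fin.last m) + θ)) = word φ G p + 1 := by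
  rw [word, word, hG, Function.update_self, ← add_assoc, map_add, hθ]

/-- The word is balanced. -/
theorem word_balanced (φ : K →+ ZMod 2) (θ : K) (hθ : φ θ = 1) (G : (Fin (m + 1) → K) → K)
    (hG : NoLast G) :
    cnt (fun p => decide (word φ G p = 1)) = cnt (fun p => !decide (word φ G p = 1)) := by
  let T : (Fin (m + 1) → K) ≃ (Fin (m + 1) → K) := Equiv.addRight (Pi.single (Fin.last m) θ)
  have hT : ∀ p, T p = Function.update p (Fin.last m) (p (Fin.last m) + θ) := by
    intro p
    funext j
    show p j + (Pi.single (Fin.last m) θ : Fin (m + 1) → K) j = _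
    by_cases hj : j = Fin.last m
    · subst hj; simp
    · rw [Function.update_of_ne hj, Pi.single_eq_of_ne hj, add_zero]
  rw [cnt, cnt]
  refine card_bij (fun p _ => T p) ?_ ?_ ?_
  · intro p hp
    simp only [mem_filter, mem_univ, true_and, decide_eq_true_eq, Bool.not_eq_true',
      decide_eq_false_iff_not] at hp ⊢
    rw [hT, word_update φ θ hθ G hG, hp]
    decide
  · intro p _ p' _ h
    exact T.injective h
  · intro p hp
    simp only [mem_filter, mem_univ, true_and, decide_eq_true_eq, Bool.not_eq_true',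
      decide_eq_false_iff_not] at hp
    refine ⟨T.symm p, ?_, T.apply_symm_apply p⟩
    simp only [mem_filter, mem_univ, true_and, decide_eq_true_eq]
    have h1 := word_update φ θ hθ G hG (T.symm p)
    rw [← hT, T.apply_symm_apply] at h1
    rw [h1] at hp
    revert hp
    generalize word φ G (T.symm p) = z
    revert z
    decide

end

/-- What is needed of the points: they are points, and every assignment extends. -/
structure Sys (q M n : ℕ) (sp : ℕ → ℕ) : Prop where
  lt : ∀ v ≤ n, sp v < q ^ M
  ext : ∀ (K : Type) [Field K] [Fintype K] [DecidableEq K] (Z : Space q (findP q) M K)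
    (φ : K →+ ZMod 2) (θ : K), φ θ = 1 → ∀ x : ℕ → Bool, ∃ y : (Fin M → K) → ZMod 2,
      (∀ p t, pre K y p t = y p) ∧
      cnt (fun p => decide (y p = 1)) = cnt (fun p => !decide (y p = 1)) ∧
      ∀ v ≤ n, ∀ p, (Z.idx p : ℕ) = sp v → y p = if x v = true then 1 else 0

theorem sys_of {q m n : ℕ} {sp : ℕ → ℕ} (hlt : ∀ v ≤ n, sp v < q ^ (m + 1)) (h4 : 4 ≤ q)
    (h : ∀ (K : Type) [Field K] [Fintype K] [DecidableEq K] (Z : Space q (findP q) (m + 1) K)
      (θ : K) (x : ℕ → Bool), ∃ G : (Fin (m + 1) → K) → K, Low G ∧ NoLast G ∧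
        ∀ v ≤ n, ∀ p, (Z.idx p : ℕ) = sp v → G p = (if x v = true then θ else 0) ∧
          p (Fin.last m) = 0) :
    Sys q (m + 1) n sp where
  lt := hlt
  ext := by
    intro K _ _ _ Z φ θ hθ x
    obtain ⟨G, h1, h2, h3⟩ := h K Z θ x
    refine ⟨word φ G, word_pre (by rw [Z.card_K]; exact h4) φ G h1, word_balanced φ θ hθ G h2, ?_⟩
    intro v hv p hp
    obtain ⟨h5, h6⟩ := h3 v hv p hp
    rw [word, h5, h6, add_zero]
    split_ifs
    · exact hθ
    · exact map_zero φ

/-! ### The first choice -/

section first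

variable {K : Type} [Field K] [Fintype K] [DecidableEq K] {m : ℕ}

theorem lde_low {D : Type*} [Fintype D] [DecidableEq D] (η : D → K) (hη : Function.Injective η)
    (θ : K) (x : (Fin m → D) → K) (h4 : 4 ≤ Fintype.card K)
    (hd : 2 * m * (Fintype.card D - 1) ≤ Fintype.card K - 2) : Low (lde η θ x) := by
  intro y h g
  refine ⟨ldePoly η θ x y h g, ?_, ldePoly_eval η θ x y h g⟩
  have := ldePoly_natDegree η hη θ x y h g
  omega

end first

theorem sysN_ok {q H m n : ℕ} (h4 : 4 ≤ q) (hH : H ≤ q) (hn : n < H ^ m)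
    (hd : 2 * m * (H - 1) ≤ q - 2) (hex : ∃ (K : Type) (_ : Field K) (_ : Fintype K)
      (_ : DecidableEq K), Nonempty (Space q (findP q) (m + 1) K)) :
    Sys q (m + 1) n (sysN q H m) := by
  refine sys_of ?_ h4 ?_
  · intro v hv
    obtain ⟨K, _, _, _, ⟨Z⟩⟩ := hex
    have := Z.idx_sysX hH (⟨v, by omega⟩ : Fin (H ^ m))
    dsimp only at this
    rw [← this]
    exact Fin.is_lt _
  · intro K _ _ _ Z θ x
    refine ⟨lde (Z.eta hH) θ (fun c : Fin m → Fin H =>
      if x (finFunctionFinEquiv c) = true then 1 else 0), ?_, ?_, ?_⟩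
    · refine lde_low _ (Z.eta_inj hH) _ _ ?_ ?_
      · rw [Z.card_K]; exact h4
      · rw [Z.card_K, Fintype.card_fin]; exact hd
    · intro p z
      exact lde_update_last _ _ _ _ _
    · intro v hv p hp
      have hv' : v < H ^ m := by omega
      have h1 := Z.idx_sysX hH (⟨v, hv'⟩ : Fin (H ^ m))
      dsimp only at h1
      rw [← h1] at hp
      have hp2 : p = Z.sysX hH ⟨v, hv'⟩ := Z.idx.injective (Fin.ext hp)
      rw [hp2]
      refine ⟨?_, ?_⟩
      · rw [Space.sysX, lde_sysPt _ (Z.eta_inj hH), Equiv.apply_symm_apply]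
        dsimp only
        split_ifs <;> simp
      · rw [Space.sysX, sysPt, Fin.snoc_last]

end Vale.Agent.P318.NPV
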