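import Vale.Agent.P318.NPV.Hon

/-!
The sums of the values of the gadgets of all tests of an equation.
-/

set_option linter.unusedSectionVars false

namespace Vale.Agent.P318.NPV

open Finset Vale.Agent.P333 Vale.Agent.P318.NPH

section

variable {q P M : ℕ} {K : Type} [Field K] [Fintype K] [DecidableEq K] (Z : Space q P M K)

/-- The number of a pair of points. -/
def pairIdx : (Fin M → K) × (Fin M → K) ≃ Fin (q ^ M * q ^ M) :=
  ((Equiv.prodComm _ _).trans (Equiv.prodCongr Z.idx Z.idx)).trans finProdFinEquiv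

theorem pairIdx_val (y : (Fin M → K) × (Fin M → K)) :
    (pairIdx Z y : ℕ) = Z.idx y.1 + q ^ M * Z.idx y.2 := rfl

/-- The number of a test. -/
def testIdx : (Fin 4 → (Fin M → K) × (Fin M → K)) ≃ Fin ((q ^ M * q ^ M) ^ 4) :=
  (Equiv.piCongrRight fun _ => pairIdx Z).trans finFunctionFinEquiv

theorem testIdx_digit (z : Fin 4 → (Fin M → K) × (Fin M → K)) (j : Fin 4) :
    (testIdx Z z : ℕ) / (q ^ M * q ^ M) ^ (j : ℕ) % (q ^ M * q ^ M) = pairIdx Z (z j) := by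
  have h1 := finFunctionFinEquiv_symm_apply_val (testIdx Z z) j
  rw [← h1, testIdx, Equiv.trans_apply, Equiv.symm_apply_apply]
  rfl

theorem testIdx_fst (z : Fin 4 → (Fin M → K) × (Fin M → K)) (j : Fin 4) :
    (testIdx Z z : ℕ) / (q ^ M) ^ (2 * (j : ℕ)) % q ^ M = Z.idx (z j).1 := by
  have h1 := testIdx_digit Z z j
  have h2 : (q ^ M * q ^ M) ^ (j : ℕ) = (q ^ M) ^ (2 * (j : ℕ)) := by rw [← sq, ← pow_mul]
  rw [h2] at h1
  rw [← Nat.mod_mul_right_mod _ (q ^ M) (q ^ M), h1, pairIdx_val, Nat.add_mul_mod_self_left,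
    Nat.mod_eq_of_lt (Fin.is_lt _)]

theorem testIdx_snd (z : Fin 4 → (Fin M → K) × (Fin M → K)) (j : Fin 4) :
    (testIdx Z z : ℕ) / (q ^ M) ^ (2 * (j : ℕ) + 1) % q ^ M = Z.idx (z j).2 := by
  have h1 := testIdx_digit Z z j
  have h2 : (q ^ M * q ^ M) ^ (j : ℕ) = (q ^ M) ^ (2 * (j : ℕ)) := by rw [← sq, ← pow_mul]
  rw [h2] at h1
  have hpos : 0 < q ^ M := lt_of_le_of_lt (Nat.zero_le _) (Z.idx (z j).1).is_lt
  generalize hN : ((testIdx Z z : Fin ((q ^ M * q ^ M) ^ 4)) : ℕ) = N at h1 ⊢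
  rw [pow_succ, ← Nat.div_div_eq_div_mul, ← Nat.mod_mul_right_div_self, h1, pairIdx_val,
    Nat.add_mul_div_left _ _ hpos, Nat.div_eq_of_lt (Fin.is_lt _), zero_add]

theorem sum_range_tests (f : ℕ → ℕ) :
    ∑ t ∈ range ((q ^ M) ^ 8), f t = ∑ z : Fin 4 → (Fin M → K) × (Fin M → K), f (testIdx Z z) := by
  have h : (q ^ M) ^ 8 = (q ^ M * q ^ M) ^ 4 := by ring
  rw [h, sum_range_equiv (testIdx Z)]

theorem posN_countP (hq : 1 ≤ q) (S : ℕ → Bool) (π : Fin 4 → Fin M → K) (πN : List ℕ)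
    (hπ : ∀ j : Fin 4, πN.getD j 0 = Z.idx (π j)) (z : Fin 4 → (Fin M → K) × (Fin M → K)) :
    (posN q P M πN (testIdx Z z)).countP S = ones (Z.side S) (qpos (K := K) π z) := by
  rw [posN, List.countP_flatMap, ones_eq_sum, Fintype.sum_prod_type]
  rw [sum_map_range]
  rw [← Fin.sum_univ_eq_sum_range (fun j => (List.countP S ∘ fun j => (List.range (q - 1)).map
    fun u => ptN q P M (πN.getD j 0) ((testIdx Z z : ℕ) / (q ^ M) ^ (2 * j) % q ^ M)
      ((testIdx Z z : ℕ) / (q ^ M) ^ (2 * j + 1) % q ^ M) (u + 1)) j) 4]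
  refine sum_congr rfl fun j _ => ?_
  rw [Function.comp_apply, List.countP_map, countP_range]
  have hs := sum_succ_range Z hq (fun u => if S (ptN q P M (πN.getD j 0)
    ((testIdx Z z : ℕ) / (q ^ M) ^ (2 * (j : ℕ)) % q ^ M)
      ((testIdx Z z : ℕ) / (q ^ M) ^ (2 * (j : ℕ) + 1) % q ^ M) u) = true then 1 else 0)
  refine Eq.trans hs ?_
  refine sum_congr rfl fun u _ => ?_
  rw [hπ j, testIdx_fst, testIdx_snd, ← Z.idx_pt]
  rfl

theorem test_sum (h4 : 4 ≤ q) (S : ℕ → Bool) (π : Fin 4 → Fin M → K) (πN : List ℕ)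
    (hπ : ∀ j : Fin 4, πN.getD j 0 = Z.idx (π j)) (b : ℕ) (hb : b ≤ 1) :
    2 * ∑ t ∈ range ((q ^ M) ^ 8), aVal (w2N q) b ((posN q P M πN t).countP S) =
      w2N q * (w2N q - 1) * (q ^ M) ^ 6 * (cnt (Z.side S) * cnt (fun x => !Z.side S x)) +
      (q ^ M) ^ 8 * dN (w2N q) b + badT K (tau (Z.side S)) π ((b : ℕ) : ZMod 2) := by
  rw [sum_range_tests Z, mul_sum]
  have hw : w2N q = 4 * (q - 1) := rfl
  have h3 : ∀ z : Fin 4 → (Fin M → K) × (Fin M → K),
      2 * aVal (w2N q) b ((posN q P M πN (testIdx Z z)).countP S) =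
      ones (Z.side S) (qpos (K := K) π z) *
        (Fintype.card (Fin 4 × {u : K // u ≠ 0}) - ones (Z.side S) (qpos (K := K) π z)) +
        dN (w2N q) b + (if ∑ i, tau (Z.side S) (qpos (K := K) π z i) ≠ ((b : ℕ) : ZMod 2)
          then 1 else 0) := by
    intro z
    rw [posN_countP Z (by omega) S π πN hπ]
    have hk : ones (Z.side S) (qpos (K := K) π z) ≤ w2N q :=
      (ones_le (Z.side S) (qpos (K := K) π z)).trans (le_of_eq (card_idx Z))
    rw [aVal_eq (w2N q) b _ (by omega) (by omega) hb hk, card_idx Z]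
    congr 1
    exact if_congr (ones_parity _ _ _) rfl rfl
  rw [sum_congr rfl fun z _ => h3 z, sum_add_distrib, sum_add_distrib, qpos_quad π, card_idx Z,
    Z.card_X, sum_const, card_univ, Fintype.card_fun, Fintype.card_prod, Z.card_X, smul_eq_mul,
    badT, card_filter, Fintype.card_fin]
  have e1 : (q ^ M * q ^ M) ^ 4 = (q ^ M) ^ 8 := by ring
  rw [e1]

end

end Vale.Agent.P318.NPV
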