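import Vale.Agent.P318.NPV.Cut

/-!
The honest cut.
-/

set_option linter.unusedSectionVars false

namespace Vale.Agent.P318.NPV

open Finset Vale.Agent.P333 Vale.Agent.P318.NPH

section

variable {q P M : ℕ}

/-- The honest cut, from its restriction to the points. -/
def extV (q P M : ℕ) (sp : ℕ → ℕ) (I : List Eqn) (S0 : ℕ → Bool) (v : ℕ) : Bool :=
  if v < 3 * q ^ M * lV q (q ^ M) I.length then
    (if v % (3 * q ^ M) < q ^ M then S0 (v % (3 * q ^ M))
      else decide (v % (3 * q ^ M) < 2 * q ^ M))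
  else decide ((v - 3 * q ^ M * lV q (q ^ M) I.length) % (w2N q + 1) ≤
    (posN q P M (eqP sp I (I.getD ((v - 3 * q ^ M * lV q (q ^ M) I.length) / (w2N q + 1) /
      (q ^ M) ^ 8) dEqn)) ((v - 3 * q ^ M * lV q (q ^ M) I.length) / (w2N q + 1) %
        (q ^ M) ^ 8)).countP S0)

variable {sp : ℕ → ℕ} (I : List Eqn)

theorem extV_pt (S0 : ℕ → Bool) (hL : 1 ≤ lV q (q ^ M) I.length) (v : ℕ)
    (hv : v < q ^ M) : extV q P M sp I S0 v = S0 v := by
  have h1 : v < 3 * q ^ M * lV q (q ^ M) I.length := by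
    calc v < 3 * q ^ M * 1 := by omega
      _ ≤ _ := Nat.mul_le_mul_left _ hL
  have h2 : v % (3 * q ^ M) = v := Nat.mod_eq_of_lt (by omega)
  rw [extV, if_pos h1, h2, if_pos hv]

theorem extV_unit (S0 : ℕ → Bool) (u j : ℕ) (hu : u < 3 * q ^ M)
    (hj : j < lV q (q ^ M) I.length) : extV q P M sp I S0 (u + 3 * q ^ M * j) =
      if u < q ^ M then S0 u else decide (u < 2 * q ^ M) := by
  have h1 : u + 3 * q ^ M * j < 3 * q ^ M * lV q (q ^ M) I.length := by
    calc u + 3 * q ^ M * j < 3 * q ^ M + 3 * q ^ M * j := by omega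
      _ = 3 * q ^ M * (j + 1) := by ring
      _ ≤ _ := Nat.mul_le_mul_left _ hj
  have h2 : (u + 3 * q ^ M * j) % (3 * q ^ M) = u := by
    rw [Nat.add_mul_mod_self_left, Nat.mod_eq_of_lt hu]
  rw [extV, if_pos h1, h2]

theorem extV_unif (S0 : ℕ → Bool) (hL : 1 ≤ lV q (q ^ M) I.length) :
    Unif (q ^ M) (lV q (q ^ M) I.length) (extV q P M sp I S0) := by
  have key : ∀ u < 3 * q ^ M, extV q P M sp I S0 u =
      if u < q ^ M then S0 u else decide (u < 2 * q ^ M) := by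
    intro u hu
    have := extV_unit (P := P) (sp := sp) I S0 u 0 hu hL
    rwa [mul_zero, add_zero] at this
  refine ⟨?_, ?_, ?_⟩
  · intro u hu j hj
    rw [extV_unit I S0 u j hu hj, key u hu]
  · intro i hi
    rw [key _ (by omega), key _ (by omega), if_neg (by omega), if_neg (by omega)]
    rw [decide_eq_decide]
    omega
  · intro i hi
    rw [key _ (by omega), key _ (by omega), if_neg (by omega), if_neg (by omega)]
    rw [decide_eq_decide]
    omega

theorem extV_hub1 (S0 : ℕ → Bool) (hL : 1 ≤ lV q (q ^ M) I.length) (hq : 1 ≤ q) :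
    extV q P M sp I S0 (q ^ M) = true := by
  have hQ : 1 ≤ q ^ M := Nat.one_le_pow _ _ hq
  have := extV_unit (P := P) (sp := sp) I S0 (q ^ M) 0 (by omega) hL
  rw [mul_zero, add_zero] at this
  rw [this, if_neg (lt_irrefl _)]
  exact decide_eq_true (by omega)

theorem extV_hub2 (S0 : ℕ → Bool) (hL : 1 ≤ lV q (q ^ M) I.length) (hq : 1 ≤ q) :
    extV q P M sp I S0 (2 * q ^ M) = false := by
  have hQ : 1 ≤ q ^ M := Nat.one_le_pow _ _ hq
  have := extV_unit (P := P) (sp := sp) I S0 (2 * q ^ M) 0 (by omega) hL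
  rw [mul_zero, add_zero] at this
  rw [this, if_neg (by omega)]
  exact decide_eq_false (lt_irrefl _)

end

section

variable {q P M : ℕ} {K : Type} [Field K] [Fintype K] [DecidableEq K] (Z : Space q P M K)
  {sp : ℕ → ℕ} (h4 : 4 ≤ q) (I : List Eqn) (hlt : ∀ v ≤ 3 * I.length, sp v < q ^ M)

include Z h4 hlt in
theorem posN_lt (e : Eqn) (t : ℕ) (ht : t < (q ^ M) ^ 8) :
    ∀ p ∈ posN q P M (eqP sp I e) t, p < q ^ M := by
  intro p hp
  have hQ : 0 < q ^ M := Nat.pos_of_ne_zero fun h => by rw [h] at ht; simp at ht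
  rw [posN, List.mem_flatMap] at hp
  obtain ⟨j, hj, hp⟩ := hp
  rw [List.mem_map] at hp
  obtain ⟨u, hu, rfl⟩ := hp
  rw [List.mem_range] at hu hj
  have h5 := eqX_idx Z hlt e ⟨j, hj⟩
  dsimp only at h5
  rw [h5]
  exact ptN_lt Z _ ⟨_, Nat.mod_lt _ hQ⟩ ⟨_, Nat.mod_lt _ hQ⟩ ⟨u + 1, by omega⟩

include Z h4 hlt in
theorem extV_good (S0 : ℕ → Bool) (hL : 1 ≤ lV q (q ^ M) I.length) :
    GoodV q P M sp I (extV q P M sp I S0) := by
  have hpt : ∀ p < q ^ M, extV q P M sp I S0 p = S0 p := fun p hp => extV_pt I S0 hL p hp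
  intro i hi t ht κ hκ
  rw [countP_congr_lt (posN_lt Z h4 I hlt _ t ht) hpt, extV, if_neg (by omega)]
  have h1 : 3 * q ^ M * lV q (q ^ M) I.length + (i * (q ^ M) ^ 8 + t) * (w2N q + 1) + κ -
      3 * q ^ M * lV q (q ^ M) I.length = κ + (w2N q + 1) * (i * (q ^ M) ^ 8 + t) := by
    have : (i * (q ^ M) ^ 8 + t) * (w2N q + 1) =
      (w2N q + 1) * (i * (q ^ M) ^ 8 + t) := mul_comm _ _
    omega
  rw [h1]
  have h3 : (κ + (w2N q + 1) * (i * (q ^ M) ^ 8 + t)) % (w2N q + 1) = κ := by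
    rw [Nat.add_mul_mod_self_left, Nat.mod_eq_of_lt (by omega)]
  have h5 : (κ + (w2N q + 1) * (i * (q ^ M) ^ 8 + t)) / (w2N q + 1) = i * (q ^ M) ^ 8 + t := by
    rw [Nat.add_mul_div_left _ _ (by omega), Nat.div_eq_of_lt (by omega), zero_add]
  have hpos : 0 < (q ^ M) ^ 8 := by omega
  have h6 : (i * (q ^ M) ^ 8 + t) / (q ^ M) ^ 8 = i := by
    rw [add_comm, Nat.add_mul_div_right _ _ hpos, Nat.div_eq_of_lt ht, zero_add]
  have h7 : (i * (q ^ M) ^ 8 + t) % (q ^ M) ^ 8 = t := by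
    rw [add_comm, Nat.add_mul_mod_self_right, Nat.mod_eq_of_lt ht]
  rw [h3, h5, h6, h7]

end

/-- **Completeness**, for the cut. -/
theorem exists_honestV {q M : ℕ} {K : Type} [Field K] [Fintype K] [DecidableEq K]
    (Z : Space q (findP q) M K) {sp : ℕ → ℕ} (h4 : 4 ≤ q) (I : List Eqn)
    (hs : Sys q M (3 * I.length) sp) (φ : K →+ ZMod 2) (θ : K) (hθ : φ θ = 1)
    (hL : 1 ≤ lV q (q ^ M) I.length) (x : ℕ → Bool) :
    ∃ S : ℕ → Bool, S (q ^ M) = true ∧ S (2 * q ^ M) = false ∧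
      Unif (q ^ M) (lV q (q ^ M) I.length) S ∧ GoodV q (findP q) M sp I S ∧
      cnt (Z.side S) = cnt (fun p => !Z.side S p) ∧
      violV Z I hs.lt S = (q ^ M) ^ 8 * violated x I := by
  obtain ⟨y, hy1, hy2, hy3⟩ := hs.ext K Z φ θ hθ (xNum I x)
  set S0 : ℕ → Bool := fun v => if h : v < q ^ M then decide (y (Z.idx.symm ⟨v, h⟩) = 1) else false
    with hS0
  set S := extV q (findP q) M sp I S0 with hS
  have hside : ∀ p, Z.side S p = decide (y p = 1) := by
    intro p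
    rw [Space.side, hS, extV_pt I _ hL _ (Z.idx p).2, hS0]
    dsimp only
    rw [dif_pos (Z.idx p).2]
    congr
    exact Z.idx.symm_apply_apply p
  have htau : tau (Z.side S) = y := by
    funext p
    rw [tau, hside]
    have : ∀ z : ZMod 2, (if decide (z = 1) = true then (1 : ZMod 2) else 0) = z := by decide
    exact this _
  refine ⟨S, extV_hub1 I _ hL (by omega), extV_hub2 I _ hL (by omega), extV_unif I _ hL,
    extV_good Z h4 I hs.lt _ hL, ?_, ?_⟩
  · have h1 : Z.side S = fun p => decide (y p = 1) := funext hside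
    rw [h1]
    exact hy2
  · rw [violV, violated, countP_eq_sum, ← sum_getD I dEqn, mul_sum]
    refine sum_congr rfl fun i hi => ?_
    rw [mem_range] at hi
    set e := I.getD i dEqn with he
    have heI : e ∈ I := by
      rw [he, List.getD_eq_getElem _ _ hi]
      exact List.getElem_mem _
    rw [eBad, htau, ← he, badT]
    have hv : ∀ (v : ℕ) (h : v ≤ 3 * I.length),
        y (Z.idx.symm ⟨sp v, hs.lt v h⟩) = if xNum I x v = true then 1 else 0 := by
      intro v h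
      exact hy3 v h _ (by rw [Equiv.apply_symm_apply])
    have h1 : ∀ t : Fin 4 → (Fin M → K) × (Fin M → K),
        ∑ i, y (qpos (K := K) (eqX Z hs.lt e) t i) = ∑ j, y (eqX Z hs.lt e j) := by
      intro t
      rw [sum_qpos]
      exact sum_congr rfl fun j _ => hy1 _ _
    simp only [h1]
    obtain ⟨m1, m2, m3⟩ := mem_vars heI
    have hiff : (∑ j, y (eqX Z hs.lt e j) ≠ ((e.2.toNat : ℕ) : ZMod 2)) ↔
        ((xor (x e.1.1) (xor (x e.1.2.1) (x e.1.2.2))) != e.2) = true := by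
      rw [Fin.sum_univ_four]
      have e0 : eqX Z hs.lt e 0 = Z.idx.symm ⟨sp (vIdx I e.1.1), hs.lt _ (vIdx_le _ _)⟩ := rfl
      have e1 : eqX Z hs.lt e 1 = Z.idx.symm ⟨sp (vIdx I e.1.2.1), hs.lt _ (vIdx_le _ _)⟩ := rfl
      have e2 : eqX Z hs.lt e 2 = Z.idx.symm ⟨sp (vIdx I e.1.2.2), hs.lt _ (vIdx_le _ _)⟩ := rfl
      have e3 : eqX Z hs.lt e 3 = Z.idx.symm ⟨sp (3 * I.length), hs.lt _ le_rfl⟩ := rfl
      rw [e0, e1, e2, e3, hv _ (vIdx_le _ _), hv _ (vIdx_le _ _), hv _ (vIdx_le _ _),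
        hv _ le_rfl, xNum_vIdx I x m1, xNum_vIdx I x m2, xNum_vIdx I x m3, xNum_last]
      exact eqn_zmod' _ _ _ _
    by_cases h : ((xor (x e.1.1) (xor (x e.1.2.1) (x e.1.2.2))) != e.2) = true
    · have h' := hiff.2 h
      rw [if_pos h, filter_true_of_mem fun _ _ => h', card_univ, Fintype.card_fun,
        Fintype.card_prod, Z.card_X, Fintype.card_fin]
      ring
    · have h' : ¬ _ := mt hiff.1 h
      rw [if_neg h, filter_false_of_mem fun _ _ => h', card_empty, mul_zero]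

end Vale.Agent.P318.NPV
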