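import Vale.Agent.P318.NPV.Viol
import Vale.Agent.P318.NPV.Ineq
import Vale.Agent.P318.NPH.EdgesOk

/-!
The gap for the weighted graph.
-/

set_option linter.unusedSectionVars false

namespace Vale.Agent.P318.NPV

open Finset Vale.Agent.P333 Vale.Agent.P318.NPH

section nums

variable {q Q : ℕ} {I : List Eqn}

theorem constV_le (h4 : 4 ≤ q) : constV q Q I ≤ 26 * q ^ 2 * (I.length * Q ^ 8) := by
  rw [constV]
  have h2 : (I.map fun e => dN (w2N q) e.2.toNat).sum ≤ I.length * (26 * q ^ 2) := by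
    have := List.sum_le_card_nsmul (I.map fun e => dN (w2N q) e.2.toNat) (26 * q ^ 2) (by
      intro x hx
      obtain ⟨e, _, rfl⟩ := List.mem_map.1 hx
      exact dN2_le h4 _)
    rwa [List.length_map, smul_eq_mul] at this
  calc Q ^ 8 * (I.map fun e => dN (w2N q) e.2.toNat).sum ≤ Q ^ 8 * (I.length * (26 * q ^ 2)) :=
        Nat.mul_le_mul_left _ h2
    _ = _ := by ring

theorem w2_lo (h4 : 4 ≤ q) : 8 * q ^ 2 ≤ w2N q * (w2N q - 1) := by
  obtain ⟨r, rfl⟩ : ∃ r, q = r + 1 := ⟨q - 1, by omega⟩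
  rw [w2N, Nat.add_sub_cancel]
  obtain ⟨s, rfl⟩ : ∃ s, r = s + 3 := ⟨r - 3, by omega⟩
  rw [show 4 * (s + 3) - 1 = 4 * s + 11 by omega]
  nlinarith

theorem w2_hi : w2N q * (w2N q - 1) ≤ 16 * q ^ 2 := by
  rw [w2N]
  calc 4 * (q - 1) * (4 * (q - 1) - 1) ≤ 4 * q * (4 * q) :=
        Nat.mul_le_mul (by omega) (by omega)
    _ = 16 * q ^ 2 := by ring

theorem bV_pos (h4 : 4 ≤ q) (hQ : 1 ≤ Q) (hl : 1 ≤ I.length) : 1 ≤ bV q Q I.length := by
  rw [bV]
  have h1 := w2_lo h4
  have h2 : 1 ≤ 8 * q ^ 2 := Nat.mul_pos (by norm_num) (Nat.pow_pos (by omega))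
  exact Nat.mul_pos (Nat.mul_pos hl (Nat.pow_pos hQ)) (by omega)

theorem aV_pos (h4 : 4 ≤ q) (hQ : 1 ≤ Q) (hl : 1 ≤ I.length) : 1 ≤ aV q Q I.length := by
  rw [aV]
  exact Nat.mul_pos (Nat.mul_pos (by omega) (bV_pos h4 hQ hl)) hQ

theorem stV_pos (hQ : 1 ≤ Q) (hl : 1 ≤ I.length) : 1 ≤ stV q Q I.length := by
  rw [stV]
  exact Nat.mul_pos (Nat.mul_pos hl (Nat.pow_pos hQ)) (by omega)

theorem lV_pos (h4 : 4 ≤ q) (hQ : 1 ≤ Q) (hl : 1 ≤ I.length) : 1 ≤ lV q Q I.length := by
  rw [lV]
  exact Nat.mul_pos (Nat.mul_pos (Nat.mul_pos (by norm_num) (Nat.pow_pos (by omega)))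
    (stV_pos hQ hl)) (aV_pos h4 hQ hl)

theorem bV_hi : bV q Q I.length * Q ^ 2 ≤ 16 * q ^ 2 * (I.length * Q ^ 8) := by
  rw [bV]
  calc I.length * Q ^ 6 * (w2N q * (w2N q - 1)) * Q ^ 2 =
      w2N q * (w2N q - 1) * (I.length * Q ^ 8) := by ring
    _ ≤ _ := Nat.mul_le_mul_right _ w2_hi

theorem bV_lo (h4 : 4 ≤ q) : 8 * q ^ 2 * (I.length * Q ^ 8) ≤ bV q Q I.length * Q ^ 2 := by
  rw [bV]
  calc 8 * q ^ 2 * (I.length * Q ^ 8) ≤ w2N q * (w2N q - 1) * (I.length * Q ^ 8) :=
        Nat.mul_le_mul_right _ (w2_lo h4)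
    _ = _ := by ring

theorem numsV (h4 : 4 ≤ q) (hQ : 1 ≤ Q) (hl : 1 ≤ I.length) :
    NumsV ((q : ℝ) ^ 2) Q (lV q Q I.length : ℕ) (aV q Q I.length : ℕ) (bV q Q I.length : ℕ)
      (constV q Q I : ℕ) (I.length * Q ^ 8 : ℕ) (stV q Q I.length : ℕ) (numV q Q I : ℕ) where
  g16 := by
    have h : (4 : ℝ) ≤ q := by exact_mod_cast h4
    nlinarith
  Q1 := by exact_mod_cast hQ
  b0 := Nat.cast_nonneg _
  U0 := Nat.cast_nonneg _
  C0 := Nat.cast_nonneg _
  St0 := Nat.cast_nonneg _
  a1 := by exact_mod_cast aV_pos h4 hQ hl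
  ha := by rw [aV]; push_cast; ring
  lo := by exact_mod_cast bV_lo (Q := Q) (I := I) h4
  hi := by exact_mod_cast bV_hi (q := q) (Q := Q) (I := I)
  hC := by exact_mod_cast constV_le (Q := Q) (I := I) h4
  hL := by
    have h1 : 10 ^ 4 * q ^ 2 * stV q Q I.length ≤ lV q Q I.length := by
      rw [lV]; exact Nat.le_mul_of_pos_right _ (aV_pos h4 hQ hl)
    exact_mod_cast h1
  hLa := by
    have h1 : 10 ^ 4 * aV q Q I.length ≤ lV q Q I.length := by
      rw [lV]
      have h2 : 10 ^ 4 * 1 ≤ 10 ^ 4 * (q ^ 2 * stV q Q I.length) :=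
        Nat.mul_le_mul_left _ (Nat.mul_pos (Nat.pow_pos (by omega)) (stV_pos hQ hl))
      calc 10 ^ 4 * aV q Q I.length = 10 ^ 4 * 1 * aV q Q I.length := by ring
        _ ≤ 10 ^ 4 * (q ^ 2 * stV q Q I.length) * aV q Q I.length := Nat.mul_le_mul_right _ h2
        _ = _ := by ring
    exact_mod_cast h1
  hnum := by rw [numV]; push_cast; ring

end nums

section yes

variable {q M : ℕ} {K : Type} [Field K] [Fintype K] [DecidableEq K]
  (Z : Space q (findP q) M K) {sp : ℕ → ℕ} (h4 : 4 ≤ q) (I : List Eqn)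
  (hs : Sys q M (3 * I.length) sp) (hl : 1 ≤ I.length)

include Z h4 hs hl in
/-- **The gap, completeness**: there is a cut of small ratio. -/
theorem weighted_yesV (φ : K →+ ZMod 2) (θ : K) (hθ : φ θ = 1)
    (hV : 8 * minViolated I ≤ I.length) :
    ∃ S : ℕ → Bool, 0 < cntN S 0 (nV q (q ^ M) I.length) ∧
      cntN S 0 (nV q (q ^ M) I.length) < nV q (q ^ M) I.length ∧
      cutE (allV q (findP q) M sp I) S * denV q (q ^ M) I.length ≤
        numV q (q ^ M) I * (cntN S 0 (nV q (q ^ M) I.length) *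
          (nV q (q ^ M) I.length - cntN S 0 (nV q (q ^ M) I.length))) := by
  have hQ : 1 ≤ q ^ M := Nat.one_le_pow _ _ (by omega)
  obtain ⟨x, hx⟩ : ∃ x, violated x I = minViolated I := by
    have := Nat.sInf_mem (s := {n : ℕ | ∃ x : ℕ → Bool, violated x I = n})
      ⟨_, fun _ => false, rfl⟩
    exact this
  obtain ⟨S, hS1, hS2, hU, hG, hbal, hviol⟩ :=
    exists_honestV Z h4 I hs φ θ hθ (lV_pos h4 hQ hl) x
  have hval := sep_eqV Z h4 I hs.lt S hS1 hS2 hU hG
  set Q := q ^ M with hQdef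
  set N := nV q Q I.length with hN
  set L := lV q Q I.length with hL
  have hcount := hU.count
  rw [hS1, hS2, if_pos rfl, if_neg (by simp), add_zero] at hcount
  have hn1 : cnt (Z.side S) = cntN S 0 Q := cnt_side Z S
  have hsum := cnt_add (Z.side S)
  rw [Z.card_X, ← hQdef, ← hbal, hn1] at hsum
  have hLpos : 1 ≤ L := lV_pos h4 hQ hl
  have hc : cntN S 0 N = L * (cntN S 0 Q + Q) + cntN S (3 * Q * L) (stV q Q I.length) := by
    rw [hN, nV, cntN_add, hcount, zero_add]
  have hz := cntN_le S (3 * Q * L) (stV q Q I.length)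
  have hNN : N = 3 * Q * L + stV q Q I.length := rfl
  have hhalf : 2 * (L * (cntN S 0 Q + Q)) = 3 * Q * L := by
    rw [show 2 * (L * (cntN S 0 Q + Q)) = L * ((cntN S 0 Q + cntN S 0 Q) + 2 * Q) by ring, hsum]
    ring
  have hpos3 : 0 < 3 * Q * L := Nat.mul_pos (Nat.mul_pos (by norm_num) hQ) hLpos
  have h2c1 : 3 * Q * L ≤ 2 * cntN S 0 N := by rw [hc]; omega
  have h2c0 : 3 * Q * L ≤ 2 * (N - cntN S 0 N) := by rw [hc, hNN]; omega
  refine ⟨S, by omega, by omega, ?_⟩
  set c1 := cntN S 0 N with hc1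
  set c0 := N - cntN S 0 N with hc0
  set cut := cutE (allV q (findP q) M sp I) S with hcut
  -- 16 cut ≤ num
  have h16 : 16 * cut ≤ numV q Q I := by
    have h1 : 16 * cut = 8 * valV Z I hs.lt S := by rw [← hval]; ring
    rw [h1, valV, hviol, hx, ← hbal, hn1, numV, ← hQdef]
    have h2 : 4 * (cntN S 0 Q * cntN S 0 Q) = Q ^ 2 := by
      calc 4 * (cntN S 0 Q * cntN S 0 Q) = (cntN S 0 Q + cntN S 0 Q) ^ 2 := by ring
        _ = Q ^ 2 := by rw [hsum]
    have h3 : 8 * (bV q Q I.length * (cntN S 0 Q * cntN S 0 Q)) = 2 * bV q Q I.length * Q ^ 2 := by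
      rw [← h2]; ring
    have h5 : 8 * (Q ^ 8 * minViolated I) ≤ I.length * Q ^ 8 := by
      calc 8 * (Q ^ 8 * minViolated I) = 8 * minViolated I * Q ^ 8 := by ring
        _ ≤ _ := Nat.mul_le_mul_right _ hV
    have h6 : 8 * (2 * (aV q Q I.length * Q)) = 16 * aV q Q I.length * Q := by ring
    omega
  have hprod : 9 * Q ^ 2 * L ^ 2 ≤ 4 * (c1 * c0) := by
    calc 9 * Q ^ 2 * L ^ 2 = (3 * Q * L) * (3 * Q * L) := by ring
      _ ≤ (2 * c1) * (2 * c0) := Nat.mul_le_mul h2c1 h2c0
      _ = 4 * (c1 * c0) := by ring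
  rw [denV, ← hL]
  have h7 : 4 * (cut * (36 * Q ^ 2 * L ^ 2)) ≤ 4 * (numV q Q I * (c1 * c0)) := by
    calc 4 * (cut * (36 * Q ^ 2 * L ^ 2)) = (16 * cut) * (9 * Q ^ 2 * L ^ 2) := by ring
      _ ≤ numV q Q I * (4 * (c1 * c0)) := Nat.mul_le_mul h16 hprod
      _ = 4 * (numV q Q I * (c1 * c0)) := by ring
  omega

end yes

section no

variable {q P M : ℕ} {K : Type} [Field K] [Fintype K] [DecidableEq K]
  (Z : Space q P M K) {sp : ℕ → ℕ} (h4 : 4 ≤ q) (I : List Eqn)
  (hlt : ∀ v ≤ 3 * I.length, sp v < q ^ M) (hl : 1 ≤ I.length) (hI : Dist I) (S : ℕ → Bool)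

include Z h4 hlt hl hI in
/-- The gap, soundness, for the cuts which contain the second hub on the side `false`. -/
theorem weighted_noV_aux (hV : 3 * I.length ≤ 8 * minViolated I)
    (hS2 : S (2 * q ^ M) = false) :
    (4000 * (q : ℝ) ^ 2 + 1) * (numV q (q ^ M) I : ℕ) *
      ((cntN S 0 (nV q (q ^ M) I.length) : ℝ) *
        (cntN (fun v => !S v) 0 (nV q (q ^ M) I.length) : ℝ)) ≤
      (cutE (allV q P M sp I) S : ℝ) * (36 * ((q ^ M : ℕ) : ℝ) ^ 2 *
        (lV q (q ^ M) I.length : ℝ) ^ 2) * (4000 * (q : ℝ) ^ 2) := by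
  have hQ : 1 ≤ q ^ M := Nat.one_le_pow _ _ (by omega)
  have hnums := numsV (q := q) (Q := q ^ M) (I := I) h4 hQ hl
  have hsame := fun h1 => same_geV (P := P) (sp := sp) I S h4 h1 hS2
  have hsep := fun h1 => sep_geV Z h4 I hlt S h1 hS2
  have hviol := violV_ge Z I hlt S hI
  set Q := q ^ M with hQdef
  set N := nV q Q I.length with hN
  set L := lV q Q I.length with hL
  set St := stV q Q I.length with hSt
  set cut := cutE (allV q P M sp I) S with hcut
  have hNN : N = 3 * Q * L + St := rfl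
  have hnot := cntN_not S 0 N
  by_cases hbig : cutE (clusterE Q L (bigV q Q I.length)) S < bigV q Q I.length
  · -- uniform on the clusters
    have hU := cluster_unif hbig
    have hcount := hU.count
    have hc : cntN S 0 N = cntN S 0 (3 * Q * L) + cntN S (3 * Q * L) St := by
      rw [hNN, cntN_add, zero_add]
    have hz := cntN_not S (3 * Q * L) St
    rw [hS2] at hcount
    simp only [Bool.false_eq_true, if_false, add_zero] at hcount
    by_cases hS1 : S Q = true
    · rw [if_pos hS1] at hcount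
      have h1 := hsep hS1
      have hn1 : cnt (Z.side S) = cntN S 0 Q := cnt_side Z S
      have hn0 : cnt (fun p => !Z.side S p) = cntN (fun v => !S v) 0 Q :=
        cnt_side Z (fun v => !S v)
      have hsum := cntN_not S 0 Q
      set n1 := cntN S 0 Q with hn1'
      set n0 := cntN (fun v => !S v) 0 Q with hn0'
      have hc0 : cntN (fun v => !S v) 0 N = L * (Q + n0) + cntN (fun v => !S v) (3 * Q * L) St := by
        have e1 : L * (n1 + Q) + L * (Q + n0) = 3 * Q * L := by
          calc L * (n1 + Q) + L * (Q + n0) = L * ((n1 + n0) + 2 * Q) := by ring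
            _ = 3 * Q * L := by rw [hsum]; ring
        omega
      have hc1 : cntN S 0 N = L * (Q + n1) + cntN S (3 * Q * L) St := by
        rw [hc, hcount, add_comm n1 Q]
      rw [hc1, hc0]
      push_cast
      have key := hnums.case3 (n1 := n1) (n0 := n0) (z1 := cntN S (3 * Q * L) St)
        (z0 := cntN (fun v => !S v) (3 * Q * L) St) (cut := cut) (Nat.cast_nonneg _)
        (Nat.cast_nonneg _) (by exact_mod_cast hsum) (Nat.cast_nonneg _) (Nat.cast_nonneg _)
        (by exact_mod_cast hz) (by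
          have h2 : 16 * aV q Q I.length * Q + 8 * bV q Q I.length * (n1 * n0) +
              8 * constV q Q I + 3 * (I.length * Q ^ 8) ≤ 16 * cut := by
            have h3 : 8 * valV Z I hlt S ≤ 16 * cut := by omega
            refine le_trans ?_ h3
            rw [valV, hn1, hn0, ← hQdef]
            have h5 : 3 * (I.length * Q ^ 8) ≤ 8 * (Q ^ 8 * minViolated I) := by
              calc 3 * (I.length * Q ^ 8) = Q ^ 8 * (3 * I.length) := by ring
                _ ≤ Q ^ 8 * (8 * minViolated I) := Nat.mul_le_mul_left _ hV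
                _ = _ := by ring
            have h6 : 8 * (2 * (aV q Q I.length * Q)) = 16 * aV q Q I.length * Q := by ring
            have h7 : 8 * (bV q Q I.length * (n1 * n0)) = 8 * bV q Q I.length * (n1 * n0) := by
              ring
            omega
          exact_mod_cast h2)
      push_cast at key
      exact key
    · rw [if_neg hS1, add_zero] at hcount
      have hS1' : S Q = false := by simpa using hS1
      have h1 := hsame hS1'
      have key := hnums.case2 (n1 := cntN S 0 Q) (z1 := cntN S (3 * Q * L) St)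
        (c0 := cntN (fun v => !S v) 0 N) (cut := cut) (Nat.cast_nonneg _) (Nat.cast_nonneg _)
        (Nat.cast_nonneg _) (by
          have h2 : cntN (fun v => !S v) 0 N ≤ 3 * (Q * L) + St := by
            have : 3 * Q * L = 3 * (Q * L) := by ring
            omega
          exact_mod_cast h2) (by exact_mod_cast h1)
      rw [hc, hcount]
      push_cast
      push_cast at key
      exact key
  · have h1 : 4 * aV q Q I.length * Q ≤ cut := by
      rw [bigV] at hbig
      push Not at hbig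
      refine hbig.trans ?_
      rw [hcut, allV, cutE_append, cutE_append, ← hQdef, ← hL, bigV]
      omega
    have key := hnums.case1 (c1 := cntN S 0 N) (c0 := cntN (fun v => !S v) 0 N) (cut := cut)
      (Nat.cast_nonneg _) (Nat.cast_nonneg _) (by
        have h2 : cntN S 0 N + cntN (fun v => !S v) 0 N = 3 * (Q * L) + St := by
          rw [hnot, hNN]; ring
        exact_mod_cast h2) (by exact_mod_cast h1)
    push_cast at key
    push_cast
    exact key

include Z h4 hlt hl hI in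
/-- **The gap, soundness**: all cuts have a large ratio. -/
theorem weighted_noV (hV : 3 * I.length ≤ 8 * minViolated I) :
    (4000 * q ^ 2 + 1) * numV q (q ^ M) I *
      (cntN S 0 (nV q (q ^ M) I.length) * (nV q (q ^ M) I.length -
        cntN S 0 (nV q (q ^ M) I.length))) ≤
      denV q (q ^ M) I.length * (4000 * q ^ 2) * cutE (allV q P M sp I) S := by
  have key : ∀ S : ℕ → Bool, S (2 * q ^ M) = false →
      (4000 * q ^ 2 + 1) * numV q (q ^ M) I *
      (cntN S 0 (nV q (q ^ M) I.length) *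
        cntN (fun v => !S v) 0 (nV q (q ^ M) I.length)) ≤
      denV q (q ^ M) I.length * (4000 * q ^ 2) * cutE (allV q P M sp I) S := by
    intro S hS
    have h1 := weighted_noV_aux Z h4 I hlt hl hI S hV hS
    have h2 : ((4000 * q ^ 2 + 1) * numV q (q ^ M) I *
      (cntN S 0 (nV q (q ^ M) I.length) *
        cntN (fun v => !S v) 0 (nV q (q ^ M) I.length)) : ℝ) ≤
      (denV q (q ^ M) I.length : ℕ) * (4000 * q ^ 2) * cutE (allV q P M sp I) S := by
      rw [denV]
      push_cast
      push_cast at h1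
      linarith
    exact_mod_cast h2
  have hnot := cntN_not S 0 (nV q (q ^ M) I.length)
  have h0 : nV q (q ^ M) I.length - cntN S 0 (nV q (q ^ M) I.length) =
      cntN (fun v => !S v) 0 (nV q (q ^ M) I.length) := by omega
  rw [h0]
  cases hS : S (2 * q ^ M)
  · exact key S hS
  · have h1 := key (fun v => !S v) (by rw [hS]; rfl)
    rw [cutE_not] at h1
    have h2 : (fun v => !!S v) = S := by funext v; simp
    rw [h2, mul_comm (cntN (fun v => !S v) 0 _)] at h1
    exact h1

include Z h4 hlt hl in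
theorem allV_ok : ∀ e ∈ allV q P M sp I, EOk (nV q (q ^ M) I.length) e := by
  have hQ : 1 ≤ q ^ M := Nat.one_le_pow _ _ (by omega)
  have hL : 1 ≤ lV q (q ^ M) I.length := lV_pos h4 hQ hl
  have hrp := fun e t ht => posN_lt Z h4 I hlt e t ht
  intro e he
  rw [allV] at he
  set Q := q ^ M with hQdef
  set L := lV q Q I.length with hLdef
  set N := nV q Q I.length with hN
  have hNN : N = 3 * Q * L + stV q Q I.length := rfl
  have hSt : stV q Q I.length = I.length * Q ^ 8 * (w2N q + 1) := rfl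
  have h3QL : 3 * Q ≤ 3 * Q * L := Nat.le_mul_of_pos_right _ hL
  have hSt1 : 1 ≤ stV q Q I.length := stV_pos (I := I) hQ hl
  rw [List.mem_append, List.mem_append] at he
  rcases he with (he | he) | he
  · rw [clusterE, List.mem_append, List.mem_append, List.mem_flatMap] at he
    rcases he with (⟨u, hu, he⟩ | he) | he
    · obtain ⟨j, hj, rfl⟩ := List.mem_map.1 he
      rw [List.mem_range] at hu hj
      have h1 : 3 * Q * (j + 1) + 3 * Q ≤ 3 * Q * L := by
        calc 3 * Q * (j + 1) + 3 * Q = 3 * Q * (j + 2) := by ring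
          _ ≤ 3 * Q * L := Nat.mul_le_mul_left _ (by omega)
      have h2 : 1 ≤ 3 * Q * (j + 1) := Nat.mul_pos (by omega) (by omega)
      exact ⟨by dsimp only; omega, by dsimp only; omega, by dsimp only; omega⟩
    · obtain ⟨i, hi, rfl⟩ := List.mem_map.1 he
      rw [List.mem_range] at hi
      exact ⟨by dsimp only; omega, by dsimp only; omega, by dsimp only; omega⟩
    · obtain ⟨i, hi, rfl⟩ := List.mem_map.1 he
      rw [List.mem_range] at hi
      exact ⟨by dsimp only; omega, by dsimp only; omega, by dsimp only; omega⟩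
  · rw [hubE, List.mem_flatMap] at he
    obtain ⟨p, hp, he⟩ := he
    rw [List.mem_range] at hp
    rw [List.mem_cons, List.mem_singleton] at he
    rcases he with rfl | rfl
    · exact ⟨by dsimp only; omega, by dsimp only; omega, by dsimp only; omega⟩
    · exact ⟨by dsimp only; omega, by dsimp only; omega, by dsimp only; omega⟩
  · rw [testE, List.mem_flatMap] at he
    obtain ⟨i, hi, he⟩ := he
    rw [List.mem_flatMap] at he
    obtain ⟨t, ht, he⟩ := he
    rw [List.mem_range] at hi ht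
    rw [← hQdef] at ht
    refine gadget_ok (Q := Q) (by omega) (by omega) ?_ ?_ (hrp _ t ht) e he
    · rw [← hQdef]
      omega
    · rw [posN_length, hNN, hSt, ← hQdef]
      have h1 : (i * Q ^ 8 + t + 1) * (w2N q + 1) ≤ I.length * Q ^ 8 * (w2N q + 1) := by
        refine Nat.mul_le_mul_right _ ?_
        calc i * Q ^ 8 + t + 1 ≤ i * Q ^ 8 + Q ^ 8 := by omega
          _ = (i + 1) * Q ^ 8 := by ring
          _ ≤ I.length * Q ^ 8 := Nat.mul_le_mul_right _ hi
      have h2 : (i * Q ^ 8 + t + 1) * (w2N q + 1) =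
        (i * Q ^ 8 + t) * (w2N q + 1) + (w2N q + 1) := by ring
      omega

end no

end Vale.Agent.P318.NPV
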